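import Vale.Agent.P338.R3.H525.WordL

/-!
P338-D: addition and subtraction of cells on files.
-/

namespace Vale.Agent.P338.R3.H525

open Vale.Agent.P338.R2.H898 Vale.Agent.P338.R2.H898.Prog
open Vale.Agent.P338.R2.H968
open Vale.Agent.P338.R3.H968
open Function (update)

variable {M F α : Type} [DecidableEq F] {d : α}

/-- Addition or subtraction. -/
def pm (sb : Bool) (x y : ℤ) : ℤ := if sb then x - y else x + y

theorem rip_wz (sb : Bool) (b : ℕ) (x y : ℤ) :
    rip sb false (wz b x).reverse (wz b y).reverse = (wz b (pm sb x y)).reverse := by
  cases sb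
  · simpa [pm] using rip_add b x y false
  · simpa [pm] using rip_sub b x y false

/-- Addition (subtraction) of a cell: the cell to the left of the head of `t`, the last cell of the
stack `A`. -/
def addC (bt : Bool → α) (ub : α → Bool) (sb : Bool) (t A cy r n : F) : Prog M F α :=
  forR n (addW bt ub sb t A cy r)

theorem run_addC {bt : Bool → α} {ub : α → Bool} (hb : ∀ b, ub (bt b) = b) {sb : Bool}
    {t A cy r n : F} (h1 : t ≠ A) (h2 : t ≠ cy) (h3 : A ≠ cy) (h4 : t ≠ r) (h5 : A ≠ r)
    (h6 : cy ≠ r) (g1 : t ≠ n) (g2 : A ≠ n) (g3 : cy ≠ n) (g4 : r ≠ n)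
    {b N : ℕ} {x y : Cell} {R Rn l w u : List α} {m : M} {z : F → Zip α}
    (hR : R.length = b) (hN : Rn.length = N)
    (ht : z t = ⟨((wds b N x).reverse).map bt ++ l, w⟩)
    (hA : z A = ⟨((wds b N y).reverse).map bt ++ u, []⟩)
    (hc : z cy = ⟨[], []⟩) (hr : z r = ⟨[], R⟩) (hn : z n = ⟨[], Rn⟩) :
    Run d (addC bt ub sb t A cy r n) ⟨m, z⟩ (N * (b * 7 + 6) + 2)
      ⟨m, update (update z t ⟨l, (wds b N fun j => pm sb (x j) (y j)).map bt ++ w⟩) A
        ⟨u, []⟩⟩ := by
  subst hR
  subst hN
  rw [wds_reverse] at ht hA
  set Z : ℕ → F → Zip α := fun i => update (update z t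
    ⟨(((List.range Rn.length).drop i).flatMap fun j => (wz R.length (x j)).reverse).map bt ++ l,
      (wds R.length i fun j => pm sb (x j) (y j)).map bt ++ w⟩) A
    ⟨(((List.range Rn.length).drop i).flatMap fun j => (wz R.length (y j)).reverse).map bt ++ u,
      []⟩ with hZ
  have e2 := run_forR (d := d) (r := n) (p := addW bt ub sb t A cy r) (R := Rn) (m := m) Z
    (R.length * 7 + 4)
    (fun i => by
      rw [hZ]
      simp only [Function.update_of_ne g2.symm, Function.update_of_ne g1.symm, hn])
    (fun i hi => by
      have e3 : (List.range Rn.length).drop i = i :: (List.range Rn.length).drop (i + 1) := by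
        rw [List.drop_eq_getElem_cons (by simpa using hi)]
        simp
      have k1 := run_addW (d := d) (sb := sb) hb h1 h2 h3 h4 h5 h6
        (xs := (wz R.length (x i)).reverse) (ys := (wz R.length (y i)).reverse) (R := R)
        (l := (((List.range Rn.length).drop (i + 1)).flatMap fun j =>
          (wz R.length (x j)).reverse).map bt ++ l)
        (w := (wds R.length i fun j => pm sb (x j) (y j)).map bt ++ w)
        (u := (((List.range Rn.length).drop (i + 1)).flatMap fun j =>
          (wz R.length (y j)).reverse).map bt ++ u) (m := m) (z := update (Z i) n (zipAt Rn i))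
        (by simp) (by simp)
        (by
          rw [Function.update_of_ne g1, hZ]
          simp only [Function.update_of_ne h1, Function.update_self]
          rw [e3, List.flatMap_cons, List.map_append, List.append_assoc])
        (by
          rw [Function.update_of_ne g2, hZ]
          simp only [Function.update_self]
          rw [e3, List.flatMap_cons, List.map_append, List.append_assoc])
        (by
          rw [Function.update_of_ne g3, hZ]
          simp only [Function.update_of_ne h3.symm, Function.update_of_ne h2.symm, hc])
        (by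
          rw [Function.update_of_ne g4, hZ]
          simp only [Function.update_of_ne h5.symm, Function.update_of_ne h4.symm, hr])
      rw [rip_wz, List.map_reverse, List.reverse_reverse] at k1
      convert k1 using 2
      rw [hZ]
      simp only [wds_succ, List.map_append, List.append_assoc]
      funext k
      simp only [Function.update_apply]
      split_ifs <;> simp_all)
  have q1 : Z 0 = z := by
    rw [hZ]
    simp only [List.drop_zero]
    rw [upd_self _ _ _ ?_, upd_self z t _ ?_]
    · rw [ht]; simp [wds]
    · rw [upd_self z t _ ?_, hA]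
      rw [ht]; simp [wds]
  have q2 : Z Rn.length = update (update z t
      ⟨l, (wds R.length Rn.length fun j => pm sb (x j) (y j)).map bt ++ w⟩) A ⟨u, []⟩ := by
    have e0 : (List.range Rn.length).drop Rn.length = [] := by
      rw [List.drop_eq_nil_iff]
      simp
    rw [hZ]
    simp only [e0, List.flatMap_nil, List.map_nil, List.nil_append]
  rw [q1, q2] at e2
  exact e2.mono (by ring_nf; omega)

end Vale.Agent.P338.R3.H525
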