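import Vale.Agent.P338.R3.H525.WordL
import Vale.Agent.P338.R3.H968.Wmul

/-!
P338-D: release of the digits of a cell, arithmetic of one word.
-/

namespace Vale.Agent.P338.R3.H525

open Vale.Agent.P338.R3.H968 hiding length_wz
open Vale.Agent.P338.R2.H778 (bits val length_bits bits_zero bits_add)

theorem wz_add (w w' : ℕ) (z : ℤ) : wz (w + w') z = wz w (z / 2 ^ w') ++ wz w' z := by
  induction w' generalizing z with
  | zero => simp [wz_zero]
  | succ w' ih =>
    rw [← Nat.add_assoc, wz_succ, ih, wz_succ, List.append_assoc, pow_succ',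
      Int.ediv_ediv_of_nonneg (by norm_num)]

/-- The shifted word, least significant bit first. -/
theorem shr_reverse {b s : ℕ} (hb : 1 ≤ b) (hs : s ≤ b) (x : ℤ) :
    (wz b (sg b x / 2 ^ s)).reverse =
      (wz b x).reverse.drop s ++ List.replicate s (sgb b x) := by
  have h1 := sext_eq hb s x
  rw [Nat.add_comm s b, wz_add] at h1
  have h2 : (List.replicate s (sgb b x) ++ wz b x).take b = wz b (sg b x / 2 ^ s) := by
    rw [h1]
    exact List.take_left' (by simp)
  rw [← h2, List.take_append, List.take_of_length_le (by simp; omega), List.length_replicate,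
    List.reverse_append, List.reverse_replicate, List.reverse_take]
  congr 2
  rw [length_wz]
  omega

theorem rnd_eq {P : CPar} (hs : 1 ≤ P.s) (hb : P.s ≤ P.b) (x : ℤ) :
    rnd P x = sg P.b x / 2 ^ P.s + if x / 2 ^ (P.s - 1) % 2 = 1 then 1 else 0 := by
  obtain ⟨s, hs'⟩ : ∃ s, P.s = s + 1 := ⟨P.s - 1, by omega⟩
  rw [rnd, hs', Nat.add_sub_cancel]
  have h1 : x / 2 ^ s % 2 = sg P.b x / 2 ^ s % 2 :=
    bit_congr (sg_emod P.b x).symm (by omega)
  rw [h1, pow_succ, ← Int.ediv_ediv_of_nonneg (by positivity : (0 : ℤ) ≤ 2 ^ s),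
    ← Int.ediv_ediv_of_nonneg (by positivity : (0 : ℤ) ≤ 2 ^ s)]
  have h2 : (sg P.b x + 2 ^ s) / 2 ^ s = sg P.b x / 2 ^ s + 1 := by
    have := Int.add_mul_ediv_left (sg P.b x) 1 (by positivity : (2 : ℤ) ^ s ≠ 0)
    rwa [mul_one] at this
  rw [h2]
  split_ifs <;> omega

/-- The number released in one step and kept. -/
def stp (P : CPar) (x : ℤ) (c : ℕ) : ℕ := (c + (rnd P x % 2 ^ P.b).toNat) % 2 ^ P.b

theorem stp_wz {P : CPar} (hs : 1 ≤ P.s) (hb : P.s ≤ P.b) (x : ℤ) (c : ℕ) :
    wz P.b (sg P.b x / 2 ^ P.s + c + if decide (x / 2 ^ (P.s - 1) % 2 = 1) = true then 1 else 0) =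
      bits P.b (stp P x c) := by
  apply wz_eq_bits
  have h0 : (0 : ℤ) < 2 ^ P.b := by positivity
  have h1 : ((rnd P x % 2 ^ P.b).toNat : ℤ) = rnd P x % 2 ^ P.b :=
    Int.toNat_of_nonneg (Int.emod_nonneg _ h0.ne')
  have h2 : sg P.b x / 2 ^ P.s + c +
      (if decide (x / 2 ^ (P.s - 1) % 2 = 1) = true then (1 : ℤ) else 0) = c + rnd P x := by
    rw [rnd_eq hs hb]
    simp only [decide_eq_true_eq]
    ring
  rw [h2, stp]
  push_cast
  rw [h1]
  exact ((Int.ModEq.refl _).add (Int.mod_modEq _ _).symm).trans (Int.mod_modEq _ _).symm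

theorem emit_succ (P : CPar) (x : Cell) (n k c : ℕ) :
    emit P x (n + 1) k c = ((bits P.w (stp P (x k) c)).reverse ++
      (emit P x n (k + 1) (stp P (x k) c / 2 ^ P.w)).1,
      (emit P x n (k + 1) (stp P (x k) c / 2 ^ P.w)).2) := rfl

theorem stp_lt (P : CPar) (x : ℤ) (c : ℕ) : stp P x c < 2 ^ P.b :=
  Nat.mod_lt _ (by positivity)

/-- The new carry in the file. -/
theorem bits_div {b w c : ℕ} (hw : w ≤ b) (hc : c < 2 ^ b) :
    bits b (c / 2 ^ w) = List.replicate w false ++ bits (b - w) (c / 2 ^ w) := by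
  have h1 : b = w + (b - w) := by omega
  have h2 : c / 2 ^ w / 2 ^ (b - w) = 0 := by
    apply Nat.div_eq_of_lt
    apply Nat.div_lt_of_lt_mul
    rw [← pow_add, ← h1]
    exact hc
  conv_lhs => rw [h1, bits_add, h2, bits_zero]

theorem bits_split {b w c : ℕ} (hw : w ≤ b) :
    bits b c = bits (b - w) (c / 2 ^ w) ++ bits w c := by
  have h1 : b = (b - w) + w := by omega
  conv_lhs => rw [h1, bits_add]

/-- The bit that decides the rounding. -/
theorem reverse_getElem_wz {b s : ℕ} (hs : s < b) (x : ℤ) :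
    (wz b x).reverse.getD s false = decide (x / 2 ^ s % 2 = 1) := by
  have h1 : (wz b x).reverse.getD s false = (wz b x).getD (b - 1 - s) false := by
    rw [List.getD_eq_getElem _ _ (by simpa using hs), List.getD_eq_getElem _ _ (by simp; omega),
      List.getElem_reverse]
    simp
  rw [h1, wz_getD _ _ _ (by omega)]
  congr 5
  omega

end Vale.Agent.P338.R3.H525
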