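import Vale.Agent.P338.R3.H525.EmitA

/-!
P338-D: release of the digits of a cell, the programs for one word.
-/

namespace Vale.Agent.P338.R3.H525

open Vale.Agent.P338.R2.H898 hiding val
open Vale.Agent.P338.R2.H898.Prog
open Vale.Agent.P338.R2.H968
open Vale.Agent.P338.R2.H784
open Vale.Agent.P338.R3.H968 hiding length_wz rd
open Vale.Agent.P338.R2.H778 (bits val length_bits bits_zero bits_add)
open Function (update)

variable {A : MTM}

theorem unbit_bc (b : Bool) : Sy.unbit (bc b : Ac A) = b := by cases b <;> rfl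

/-- The bit under the head of the own file `c`. -/
def rb (x : FT A → Option (Ac A)) (c : CF) : Bool := ((x (cf c)).map Sy.unbit).getD false

/-- Add the bit under the head of `x` to the bit to the left of the head of `acc`, with the carry
in `h 0`. -/
def sumStep (A : MTM) [DecidableEq (FT A)] : PC A :=
  .seq (act (cf .acc) .left)
  (.seq (.prim fun m x => (m, some (cf .acc, .write (bc (rb x .x ^^ (rb x .acc ^^ rb x (.h 0)))))))
  (.prim fun m x => (m, some (cf (.h 0), .write
    (bc (car false (rb x .x) (rb x .acc ^^ (rb x .x ^^ rb x (.h 0))) (rb x (.h 0))))))))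

section
variable [DecidableEq (FT A)]

theorem run_sumStep {m : CallMem A} {p q c : Bool} {l r u v : List (Ac A)}
    {o : CF → Zip (Ac A)} (hx : o .x = ⟨u, bc p :: v⟩) (ha : o .acc = ⟨bc q :: l, r⟩)
    (hc : o (.h 0) = ⟨[], [bc c]⟩) :
    Run (dc A) (sumStep A) ⟨m, S0 o⟩ 3
      ⟨m, S0 (update (update o .acc ⟨l, bc (p ^^ (q ^^ c)) :: r⟩) (.h 0)
        ⟨[], [bc (car false p q c)]⟩)⟩ := by
  have s1 := Vale.Agent.P338.R2.H968.run_act' (d := dc A) (f := cf .acc) (o := .left)
    (v := ⟨l, bc q :: r⟩) (m := m) (z := S0 o) (by rw [S0_cf, ha]; rfl)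
  simp only [upd_cf] at s1
  have s2 : Run (dc A) (.prim fun m x => (m, some (cf .acc, .write
      (bc (rb x .x ^^ (rb x .acc ^^ rb x (.h 0)))))) : PC A)
      ⟨m, S0 (update o .acc ⟨l, bc q :: r⟩)⟩ 1
      ⟨m, S0 (update o .acc ⟨l, bc (p ^^ (q ^^ c)) :: r⟩)⟩ := by
    apply Run.prim'
    have e1 : ∀ f : CF, rb (Store.reads (⟨m, S0 (update o .acc ⟨l, bc q :: r⟩)⟩ :
        Store (CallMem A) (FT A) (Ac A))) f =
        (((update o .acc ⟨l, bc q :: r⟩ : CF → Zip (Ac A)) f).peek.map Sy.unbit).getD false :=
      fun f => rfl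
    simp only [appAct, e1, Function.update_self, Function.update_of_ne (show CF.x ≠ .acc by simp),
      Function.update_of_ne (show CF.h 0 ≠ .acc by simp), hx, hc, peek_cons, Option.map_some,
      Option.getD_some, unbit_bc, S_cf, app_write_cons, upd_cf, Function.update_idem]
  have s3 : Run (dc A) (.prim fun m x => (m, some (cf (.h 0), .write
      (bc (car false (rb x .x) (rb x .acc ^^ (rb x .x ^^ rb x (.h 0))) (rb x (.h 0)))))) : PC A)
      ⟨m, S0 (update o .acc ⟨l, bc (p ^^ (q ^^ c)) :: r⟩)⟩ 1
      ⟨m, S0 (update (update o .acc ⟨l, bc (p ^^ (q ^^ c)) :: r⟩) (.h 0)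
        ⟨[], [bc (car false p q c)]⟩)⟩ := by
    apply Run.prim'
    have e1 : ∀ f : CF, rb (Store.reads (⟨m, S0 (update o .acc ⟨l, bc (p ^^ (q ^^ c)) :: r⟩)⟩ :
        Store (CallMem A) (FT A) (Ac A))) f =
        (((update o .acc ⟨l, bc (p ^^ (q ^^ c)) :: r⟩ : CF → Zip (Ac A)) f).peek.map
          Sy.unbit).getD false := fun f => rfl
    simp only [appAct, e1, Function.update_self, Function.update_of_ne (show CF.x ≠ .acc by simp),
      Function.update_of_ne (show CF.h 0 ≠ .acc by simp), hx, hc, peek_cons, Option.map_some,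
      Option.getD_some, unbit_bc, S_cf, app_write_cons, upd_cf]
    congr 6
    cases p <;> cases q <;> cases c <;> rfl
  exact (Run.seq s1 (Run.seq s2 s3)).mono (by omega)

/-- The state of the files `x`, `acc`, `h 0` during the addition: `L` is the word, least
significant bit first, `i` of its bits are on the right; `j` bits of the sum are ready. -/
def sO (o : CF → Zip (Ac A)) (L u v : List (Ac A)) (i : ℕ) (c0 : Bool) (ps qs : List Bool)
    (j : ℕ) : CF → Zip (Ac A) :=
  update (update (update o .x ⟨L.drop i ++ u, (L.take i).reverse ++ v⟩) .acc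
    ⟨(qs.drop j).map bc, ((rip false c0 (ps.take j) (qs.take j)).map bc).reverse⟩) (.h 0)
    ⟨[], [bc (rc false c0 (ps.take j) (qs.take j))]⟩

theorem run_sumStep' {m : CallMem A} {o : CF → Zip (Ac A)} {L u v : List (Ac A)} {i : ℕ}
    {c0 : Bool} {ps qs : List Bool} {j : ℕ} {k : RN} {y : Zip (Ac A)} (hp : j < ps.length)
    (hq : j < qs.length) {v' : List (Ac A)} (hv : (L.take i).reverse ++ v = bc ps[j] :: v') :
    Run (dc A) (sumStep A) ⟨m, S0 (update (sO o L u v i c0 ps qs j) (.r k) y)⟩ 3
      ⟨m, S0 (update (sO o L u v i c0 ps qs (j + 1)) (.r k) y)⟩ := by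
  have h1 := run_sumStep (A := A) (m := m) (p := ps[j]) (q := qs[j])
    (c := rc false c0 (ps.take j) (qs.take j)) (l := (qs.drop (j + 1)).map bc)
    (r := ((rip false c0 (ps.take j) (qs.take j)).map bc).reverse) (u := L.drop i ++ u)
    (v := v') (o := update (sO o L u v i c0 ps qs j) (.r k) y)
    (by
      rw [Function.update_of_ne (by simp), sO, Function.update_of_ne (by simp),
        Function.update_of_ne (by simp), Function.update_self, hv])
    (by
      rw [Function.update_of_ne (by simp), sO, Function.update_of_ne (by simp),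
        Function.update_self, List.drop_eq_getElem_cons hq]
      rfl)
    (by rw [Function.update_of_ne (by simp), sO, Function.update_self])
  have k2 := rip_snoc false c0 (ps.take j) (qs.take j) ps[j] qs[j] (by
    rw [List.length_take, List.length_take]; omega)
  rw [← List.take_succ_eq_append_getElem hp, ← List.take_succ_eq_append_getElem hq] at k2
  refine Run.to h1 le_rfl ?_
  congr 2
  rw [sO, sO, k2.1, k2.2]
  funext f
  simp only [List.map_append, List.reverse_append, List.map_cons, List.map_nil,
    List.reverse_cons, List.reverse_nil, List.nil_append, List.cons_append]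
  simp only [Function.update_apply]
  split_ifs <;> simp_all

end

end Vale.Agent.P338.R3.H525
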