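import Vale.Agent.P338.R3.H525.EmitB

/-!
P338-D: release of the digits of a cell, one word.
-/

namespace Vale.Agent.P338.R3.H525

open Vale.Agent.P338.R2.H898 hiding val
open Vale.Agent.P338.R2.H898.Prog
open Vale.Agent.P338.R2.H968
open Vale.Agent.P338.R2.H784
open Vale.Agent.P338.R3.H968 hiding length_wz
open Vale.Agent.P338.R2.H778 (bits val length_bits bits_zero bits_add)
open Function (update)

variable {A : MTM}

section
variable [DecidableEq (FT A)]

/-- What is needed of the rulers. -/
def RY (P : CPar) (o : CF → Zip (Ac A)) : Prop :=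
  ∀ k, k ≠ RN.Y → o (.r k) = ⟨[], List.replicate (rv P k) .u⟩

omit [DecidableEq (FT A)] in
theorem sO_r (o : CF → Zip (Ac A)) (L u v : List (Ac A)) (i : ℕ) (c0 : Bool) (ps qs : List Bool)
    (j : ℕ) (k : RN) : sO o L u v i c0 ps qs j (.r k) = o (.r k) := by
  rw [sO, Function.update_of_ne (by simp), Function.update_of_ne (by simp),
    Function.update_of_ne (by simp)]

/-- First loop of the addition. -/
theorem run_sumA {m : CallMem A} {o : CF → Zip (Ac A)} {u v : List (Ac A)} {c0 σ : Bool}
    {Lb qs : List Bool} {b s : ℕ} (hs : s ≤ b) (hL : Lb.length = b) (hq : qs.length = b)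
    (hr : o (.r .bs) = ⟨[], List.replicate (b - s) .u⟩) :
    Run (dc A) (forR (rf .bs) (.seq (act (cf .x) .left) (sumStep A)))
      ⟨m, S0 (sO o (Lb.map bc) u v s c0 (Lb.drop s ++ List.replicate s σ) qs 0)⟩
      ((b - s) * 6 + 2)
      ⟨m, S0 (sO o (Lb.map bc) u v b c0 (Lb.drop s ++ List.replicate s σ) qs (b - s))⟩ := by
  set ps := Lb.drop s ++ List.replicate s σ with hps
  have lps : ps.length = b := by simp [hps, hL]; omega
  set R : List (Ac A) := List.replicate (b - s) .u with hR
  have lR : R.length = b - s := by simp [hR]
  have h1 := run_forR (d := dc A) (r := rf .bs) (p := .seq (act (cf .x) .left) (sumStep A))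
    (R := R) (m := m) (fun i => S0 (sO o (Lb.map bc) u v (s + i) c0 ps qs i)) 4
    (fun i => by rw [S0_cf, sO_r, hr])
    (fun i hi => by
      have hi' : i < b - s := by omega
      have hl : s + i < (Lb.map (bc (A := A))).length := by simp [hL]; omega
      simp only [upd_cf]
      have s1 := Vale.Agent.P338.R2.H968.run_act' (d := dc A) (f := cf .x) (o := .left)
        (v := ⟨(Lb.map bc).drop (s + (i + 1)) ++ u,
          ((Lb.map bc).take (s + (i + 1))).reverse ++ v⟩) (m := m)
        (z := S0 (update (sO o (Lb.map bc) u v (s + i) c0 ps qs i) (.r .bs) (zipAt R i)))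
        (by
          rw [S0_cf, Function.update_of_ne (by simp), sO, Function.update_of_ne (by simp),
            Function.update_of_ne (by simp), Function.update_self,
            List.drop_eq_getElem_cons hl, List.cons_append, app_left_cons, ← Nat.add_assoc,
            List.take_succ_eq_append_getElem hl, List.reverse_append]
          rfl)
      simp only [upd_cf] at s1
      have e1 : update (update (sO o (Lb.map bc) u v (s + i) c0 ps qs i) (.r .bs) (zipAt R i)) .x
          ⟨(Lb.map bc).drop (s + (i + 1)) ++ u, ((Lb.map bc).take (s + (i + 1))).reverse ++ v⟩ =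
          update (sO o (Lb.map bc) u v (s + (i + 1)) c0 ps qs i) (.r .bs) (zipAt R i) := by
        rw [sO, sO]
        funext f
        simp only [Function.update_apply]
        split_ifs <;> simp_all
      rw [e1] at s1
      have hp : i < ps.length := by omega
      have hq' : i < qs.length := by omega
      have e2 : ((Lb.map (bc (A := A))).take (s + (i + 1))).reverse ++ v =
          bc ps[i] :: (((Lb.map bc).take (s + i)).reverse ++ v) := by
        rw [← Nat.add_assoc, List.take_succ_eq_append_getElem hl, List.reverse_append]
        simp only [List.reverse_cons, List.reverse_nil, List.nil_append, List.cons_append,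
          List.getElem_map]
        congr 2
        rw [List.getElem_append_left (by simp [hL]; omega), List.getElem_drop]
      have s2 := run_sumStep' (A := A) (m := m) (o := o) (L := Lb.map bc) (u := u) (v := v)
        (i := s + (i + 1)) (c0 := c0) (k := .bs) (y := zipAt R i) hp hq' e2
      exact (Run.seq s1 s2).mono (by omega))
  simp only [lR, Nat.add_zero] at h1
  rw [show s + (b - s) = b by omega] at h1
  exact h1.mono (by omega)

/-- Second loop of the addition. -/
theorem run_sumB {m : CallMem A} {o : CF → Zip (Ac A)} {u v : List (Ac A)} {c0 σ : Bool}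
    {Lb qs : List Bool} {b s : ℕ} (hs : s ≤ b) (hL : Lb.length = b) (hq : qs.length = b)
    {w : List Bool} (hσ : Lb.reverse = σ :: w)
    (hr : o (.r .s) = ⟨[], List.replicate s .u⟩) :
    Run (dc A) (forR (rf .s) (sumStep A))
      ⟨m, S0 (sO o (Lb.map bc) u v b c0 (Lb.drop s ++ List.replicate s σ) qs (b - s))⟩
      (s * 5 + 2)
      ⟨m, S0 (sO o (Lb.map bc) u v b c0 (Lb.drop s ++ List.replicate s σ) qs b)⟩ := by
  set ps := Lb.drop s ++ List.replicate s σ with hps
  have lps : ps.length = b := by simp [hps, hL]; omega
  set R : List (Ac A) := List.replicate s .u with hR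
  have lR : R.length = s := by simp [hR]
  have h1 := run_forR (d := dc A) (r := rf .s) (p := sumStep A)
    (R := R) (m := m) (fun i => S0 (sO o (Lb.map bc) u v b c0 ps qs (b - s + i))) 3
    (fun i => by rw [S0_cf, sO_r, hr])
    (fun i hi => by
      simp only [upd_cf]
      have hp : b - s + i < ps.length := by omega
      have hq' : b - s + i < qs.length := by omega
      have e2 : ((Lb.map (bc (A := A))).take b).reverse ++ v =
          bc ps[b - s + i] :: (w.map bc ++ v) := by
        rw [List.take_of_length_le (by simp [hL]), ← List.map_reverse, hσ]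
        simp only [List.map_cons, List.cons_append]
        congr 2
        rw [List.getElem_append_right (by simp [hL])]
        simp
      exact run_sumStep' (A := A) (m := m) (o := o) (L := Lb.map bc) (u := u) (v := v)
        (i := b) (c0 := c0) (k := .s) (y := zipAt R i) hp hq' e2)
  simp only [lR, Nat.add_zero] at h1
  rw [show b - s + s = b by omega] at h1
  exact h1.mono (by omega)

/-- Release one bit. -/
def outStep (A : MTM) [DecidableEq (FT A)] : PC A :=
  .seq (act (cf .acc) .left)
  (.seq (put1 (cf .out) (Vale.Agent.P338.R3.H968.rd (dc A) (cf .acc))) (act (cf .acc) .trunc))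

theorem run_out {m : CallMem A} {o : CF → Zip (Ac A)} {rl O : List (Ac A)} {w : ℕ}
    (hw : w ≤ rl.length) (ha : o .acc = ⟨rl, []⟩) (ho : o .out = ⟨O, []⟩)
    (hr : o (.r .w) = ⟨[], List.replicate w .u⟩) :
    Run (dc A) (forR (rf .w) (outStep A)) ⟨m, S0 o⟩ (w * 6 + 2)
      ⟨m, S0 (update (update o .acc ⟨rl.drop w, []⟩) .out ⟨(rl.take w).reverse ++ O, []⟩)⟩ := by
  set R : List (Ac A) := List.replicate w .u with hR
  have lR : R.length = w := by simp [hR]
  have h1 := run_forR (d := dc A) (r := rf .w) (p := outStep A)
    (R := R) (m := m) (fun i => S0 (update (update o .acc ⟨rl.drop i, []⟩) .out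
      ⟨(rl.take i).reverse ++ O, []⟩)) 4
    (fun i => by
      rw [S0_cf, Function.update_of_ne (by simp), Function.update_of_ne (by simp), hr])
    (fun i hi => by
      have hi' : i < rl.length := by omega
      simp only [upd_cf]
      set o1 := update (update (update o .acc ⟨rl.drop i, []⟩) .out
        ⟨(rl.take i).reverse ++ O, []⟩) (.r .w) (zipAt R i) with ho1
      have a1 : o1 .acc = ⟨rl.drop i, []⟩ := by
        rw [ho1, Function.update_of_ne (by simp), Function.update_of_ne (by simp),
          Function.update_self]
      have b1 : o1 .out = ⟨(rl.take i).reverse ++ O, []⟩ := by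
        rw [ho1, Function.update_of_ne (by simp), Function.update_self]
      have s1 := Vale.Agent.P338.R2.H968.run_act' (d := dc A) (f := cf .acc) (o := .left)
        (v := ⟨rl.drop (i + 1), [rl[i]]⟩) (m := m) (z := S0 o1)
        (by rw [S0_cf, a1, List.drop_eq_getElem_cons hi', app_left_cons])
      simp only [upd_cf] at s1
      have s2 := run_put1 (d := dc A) (g := cf .out)
        (s := Vale.Agent.P338.R3.H968.rd (dc A) (cf .acc)) (a := rl[i])
        (u := (rl.take i).reverse ++ O) (v := []) (m := m)
        (z := S0 (update o1 .acc ⟨rl.drop (i + 1), [rl[i]]⟩))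
        (by rw [S0_cf, Function.update_of_ne (by simp), b1])
        (by
          rw [Vale.Agent.P338.R3.H968.rd, S0_cf, Function.update_self]
          rfl)
      simp only [upd_cf, List.tail_nil] at s2
      have s3 := Vale.Agent.P338.R2.H968.run_act' (d := dc A) (f := cf .acc) (o := .trunc)
        (v := ⟨rl.drop (i + 1), []⟩) (m := m)
        (z := S0 (update (update o1 .acc ⟨rl.drop (i + 1), [rl[i]]⟩) .out
          ⟨rl[i] :: ((rl.take i).reverse ++ O), []⟩))
        (by rw [S0_cf, Function.update_of_ne (by simp), Function.update_self, app_trunc])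
      simp only [upd_cf] at s3
      refine Run.to (Run.seq s1 (Run.seq s2 s3)) (by omega) ?_
      congr 2
      rw [ho1]
      have e1 : rl[i] :: ((rl.take i).reverse ++ O) = (rl.take (i + 1)).reverse ++ O := by
        rw [List.take_succ_eq_append_getElem hi', List.reverse_append]
        rfl
      rw [e1]
      funext f
      simp only [Function.update_apply]
      split_ifs <;> simp_all)
  simp only [lR, List.drop_zero, List.take_zero, List.reverse_nil, List.nil_append] at h1
  rw [upd_self o .acc _ ha, upd_self o .out _ ho] at h1
  exact h1.mono (by omega)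

end

end Vale.Agent.P338.R3.H525
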