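import Vale.Agent.P338.R3.H525.EmitC

/-!
P338-D: release of the digits of a cell, the addition of one word.
-/

namespace Vale.Agent.P338.R3.H525

open Vale.Agent.P338.R2.H898 hiding val
open Vale.Agent.P338.R2.H898.Prog
open Vale.Agent.P338.R2.H968
open Vale.Agent.P338.R2.H784
open Vale.Agent.P338.R3.H968 hiding length_wz
open Vale.Agent.P338.R2.H778 (bits val length_bits bits_zero bits_add)
open Function (update)

variable {A : MTM}

section
variable [DecidableEq (FT A)]

/-- The rounded word is added to the carry. -/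
def emA (A : MTM) [DecidableEq (FT A)] : PC A :=
  .seq (lN (cf .x) (rf .s1))
  (.seq (act (cf .x) .left)
  (.seq (.prim fun m x => (m, some (cf (.h 0), .write ((x (cf .x)).getD (dc A)))))
  (.seq (forR (rf .bs) (.seq (act (cf .x) .left) (sumStep A)))
  (.seq (forR (rf .s) (sumStep A))
  (.seq (clr (cf (.h 0)))
  (rN (cf .acc) (rf .b)))))))

theorem run_emA {P : CPar} (hP : P.Ok) {m : CallMem A} {o : CF → Zip (Ac A)} (ho : RY P o)
    (x : ℤ) (c : ℕ) {u v : List (Ac A)} (hx : o .x = ⟨(wz P.b x).reverse.map bc ++ u, v⟩)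
    (ha : o .acc = ⟨(bits P.b c).reverse.map bc, []⟩) (hh : o (.h 0) = ⟨[], []⟩) :
    Run (dc A) (emA A) ⟨m, S0 o⟩ (20 * P.b + 20)
      ⟨m, S0 (update (update o .x ⟨u, (wz P.b x).map bc ++ v⟩) .acc
        ⟨(bits P.b (stp P x c)).reverse.map bc, []⟩)⟩ := by
  have hb := hP.hb
  have hs := hP.hs
  have hw := hP.hw
  set Lb := (wz P.b x).reverse with hLb
  have lL : Lb.length = P.b := by simp [hLb]
  set qs := (bits P.b c).reverse with hqs
  have lq : qs.length = P.b := by simp [hqs]
  set c0 := decide (x / 2 ^ (P.s - 1) % 2 = 1) with hc0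
  have hl : P.s - 1 < (Lb.map (bc (A := A))).length := by simp [lL]; omega
  have hget : (Lb.map (bc (A := A)))[P.s - 1] = bc c0 := by
    have h1 := reverse_getElem_wz (b := P.b) (s := P.s - 1) (by omega) x
    rw [List.getD_eq_getElem _ _ (by simp; omega)] at h1
    rw [List.getElem_map, hc0, ← h1]
  have es : P.s - 1 + 1 = P.s := by omega
  have eT : (Lb.map (bc (A := A))).take P.s =
      (Lb.map (bc (A := A))).take (P.s - 1) ++ [bc c0] := by
    conv_lhs => rw [← es]
    rw [List.take_succ_eq_append_getElem hl, hget]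
  have eD : (Lb.map (bc (A := A))).drop (P.s - 1) =
      bc c0 :: (Lb.map (bc (A := A))).drop P.s := by
    rw [List.drop_eq_getElem_cons hl, hget, es]
  have r1 : o (.r .s1) = ⟨[], List.replicate (P.s - 1) .u⟩ := ho .s1 (by simp)
  have rbs : o (.r .bs) = ⟨[], List.replicate (P.b - P.s) .u⟩ := ho .bs (by simp)
  have rs : o (.r .s) = ⟨[], List.replicate P.s .u⟩ := ho .s (by simp)
  have rb : o (.r .b) = ⟨[], List.replicate P.b .u⟩ := ho .b (by simp)
  have s1 := run_lN (d := dc A) (f := cf .x) (r := rf .s1) (by simp)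
    (x := (Lb.map bc).take (P.s - 1)) (u := (Lb.map bc).drop (P.s - 1) ++ u) (v := v)
    (R := List.replicate (P.s - 1) .u) (m := m) (z := S0 o)
    (by simp [lL]; omega) (by rw [S0_cf, hx, ← List.append_assoc, List.take_append_drop])
    (by rw [S0_cf, r1])
  simp only [upd_cf, List.length_replicate] at s1
  have s2 := Vale.Agent.P338.R2.H968.run_act' (d := dc A) (f := cf .x) (o := .left)
    (v := ⟨(Lb.map bc).drop P.s ++ u, ((Lb.map bc).take P.s).reverse ++ v⟩) (m := m)
    (z := S0 (update o .x ⟨(Lb.map bc).drop (P.s - 1) ++ u,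
      ((Lb.map bc).take (P.s - 1)).reverse ++ v⟩))
    (by
      rw [S0_cf, Function.update_self, eD, List.cons_append, app_left_cons, eT,
        List.reverse_append]
      rfl)
  simp only [upd_cf, Function.update_idem] at s2
  set o2 := update o .x (⟨(Lb.map bc).drop P.s ++ u, ((Lb.map bc).take P.s).reverse ++ v⟩ :
    Zip (Ac A)) with ho2
  have s3 : Run (dc A) (.prim fun m x => (m, some (cf (.h 0), .write ((x (cf .x)).getD (dc A))))
      : PC A) ⟨m, S0 o2⟩ 1 ⟨m, S0 (update o2 (.h 0) ⟨[], [bc c0]⟩)⟩ := by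
    apply Run.prim'
    have e1 : ((⟨m, S0 o2⟩ : Store (CallMem A) (FT A) (Ac A)).reads (cf .x)).getD (dc A) =
        bc c0 := by
      change ((o2 .x).peek).getD (dc A) = bc c0
      rw [ho2, Function.update_self, eT, List.reverse_append]
      rfl
    have e2 : (S0 o2 : FT A → Zip (Ac A)) (cf (.h 0)) = ⟨[], []⟩ := by
      rw [S0_cf, ho2, Function.update_of_ne (by simp), hh]
    simp only [appAct, e1, e2, app_write_nil, upd_cf]
  set ps := Lb.drop P.s ++ List.replicate P.s (sgb P.b x) with hps
  have e3 : update o2 (.h 0) ⟨[], [bc c0]⟩ = sO o (Lb.map bc) u v P.s c0 ps qs 0 := by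
    have : update o2 .acc ⟨(qs.drop 0).map bc, ((rip false c0 (ps.take 0) (qs.take 0)).map
        bc).reverse⟩ = o2 := by
      apply upd_self
      rw [ho2, Function.update_of_ne (by simp), ha]
      rfl
    rw [sO, ← ho2, this]
    rfl
  rw [e3] at s3
  have s4 := run_sumA (A := A) (m := m) (o := o) (u := u) (v := v) (c0 := c0) (σ := sgb P.b x)
    (Lb := Lb) (qs := qs) (b := P.b) (s := P.s) (by omega) lL lq rbs
  have s5 := run_sumB (A := A) (m := m) (o := o) (u := u) (v := v) (c0 := c0) (σ := sgb P.b x)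
    (Lb := Lb) (qs := qs) (b := P.b) (s := P.s) (by omega) lL lq
    (w := bits (P.b - 1) (x % 2 ^ P.b).toNat)
    (by rw [hLb, List.reverse_reverse, wz_eq_cons (by omega)]) rs
  rw [← hps] at s4 s5
  have lps : ps.length = P.b := by simp [hps, lL]; omega
  -- the sum
  have e4 : (rip false c0 ps qs) = (bits P.b (stp P x c)).reverse := by
    have h1 : ps = (wz P.b (sg P.b x / 2 ^ P.s)).reverse := by
      rw [hps, hLb, shr_reverse (by omega) (by omega)]
    have h2 : qs = (wz P.b (c : ℤ)).reverse := by rw [hqs, wz_nat]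
    rw [h1, h2, rip_add, hc0, stp_wz hs (by omega)]
  have e5 : sO o (Lb.map bc) u v P.b c0 ps qs P.b =
      update (update (update o .x ⟨u, (wz P.b x).map bc ++ v⟩) .acc
        ⟨[], (bits P.b (stp P x c)).map bc⟩) (.h 0) ⟨[], [bc (rc false c0 ps qs)]⟩ := by
    rw [sO, List.drop_of_length_le (by simp [lL]), List.take_of_length_le (by simp [lL]),
      List.drop_of_length_le lq.le, List.take_of_length_le lps.le, List.take_of_length_le lq.le,
      e4, hLb, ← List.map_reverse, ← List.map_reverse, List.reverse_reverse,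
      List.reverse_reverse]
    rfl
  rw [e5] at s5
  set B := (bits P.b (stp P x c)).map (bc (A := A)) with hB
  have lB : B.length = P.b := by simp [hB]
  have s6 := run_clr (d := dc A) (cf (.h 0)) m
    (S0 (update (update (update o .x ⟨u, (wz P.b x).map bc ++ v⟩) .acc ⟨[], B⟩) (.h 0)
      ⟨[], [bc (rc false c0 ps qs)]⟩))
  simp only [upd_cf, Function.update_idem] at s6
  have e6 : update (update (update o .x ⟨u, (wz P.b x).map bc ++ v⟩) .acc ⟨[], B⟩) (.h 0)
      ⟨[], []⟩ = update (update o .x ⟨u, (wz P.b x).map bc ++ v⟩) .acc ⟨[], B⟩ := by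
    apply upd_self
    rw [Function.update_of_ne (by simp), Function.update_of_ne (by simp), hh]
  rw [e6] at s6
  have s7 := run_rN (d := dc A) (f := cf .acc) (r := rf .b) (by simp) (x := B) (u := [])
    (v := []) (R := List.replicate P.b .u) (m := m)
    (z := S0 (update (update o .x ⟨u, (wz P.b x).map bc ++ v⟩) .acc ⟨[], B⟩))
    (by simpa using lB) (by rw [S0_cf, Function.update_self, List.append_nil])
    (by rw [S0_cf, Function.update_of_ne (by simp), Function.update_of_ne (by simp), rb])
  simp only [upd_cf, List.length_replicate, Function.update_idem, List.append_nil] at s7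
  have e7 : B.reverse = (bits P.b (stp P x c)).reverse.map bc := by rw [hB, List.map_reverse]
  rw [e7] at s7
  refine Run.mono (Run.seq s1 (Run.seq s2 (Run.seq s3 (Run.seq s4 (Run.seq s5
    (Run.seq s6 s7)))))) ?_
  omega

end

end Vale.Agent.P338.R3.H525
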