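import Vale.Agent.P338.R3.H525.OpsY
import Vale.Agent.P338.R3.H898.Act

/-!
P338-D: the acts of the cell machine that need no calls and no input or output.
-/

namespace Vale.Agent.P338.R3.H525

open Vale.Agent.P338.R2.H898 Vale.Agent.P338.R2.H898.Prog
open Vale.Agent.P338.R2.H968
open Vale.Agent.P338.R3.H968
open Vale.Agent.P338.R3.H898

variable {A : MTM} [DecidableEq A.Tape] {P : CPar}

/-- The program of an act (codes `0, …, 8, 13, 15`). -/
def pFree (A : MTM) [DecidableEq A.Tape] : ℕ → PC A
  | 0 => pR A
  | 1 => pL A
  | 2 => pPushR A false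
  | 3 => pPushL A false
  | 4 => pTr A false
  | 5 => pAddR A false true
  | 6 => pAddR A true true
  | 7 => pAddL A false true
  | 8 => pAddL A true true
  | 13 => pZero A
  | 15 => pZeroS A true
  | _ => skip

/-- The codes of the acts without calls, input and output. -/
def isFree (o : ℕ) : Bool := o ≤ 8 || o == 13 || o == 15

theorem nw_le_ell (h : P.Ok) : P.nw ≤ P.ell := by
  have := h.hb
  exact Nat.le_mul_of_pos_right _ (by omega)

theorem run_free (hP : P.Ok) {o : ℕ} {u v : List Bool} (ho : isFree o = true) {D D' : DS}
    (h : Ex1 P (o, u, v) D D') :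
    Run (dc A) (pFree A o) (stc P D) (40 * (P.ell + 1)) (stc P D') := by
  have h0 := nw_le_ell hP
  have h1 : P.nw * (P.b * 7 + 6) ≤ 13 * P.ell := by
    have : P.nw * (P.b * 7 + 6) = 7 * P.ell + 6 * P.nw := by
      simp only [CPar.ell]
      ring
    omega
  cases h with
  | mvR _ c l r h => exact (run_pR h).mono (by omega)
  | mvL _ c l r h => exact (run_pL h).mono (by omega)
  | pushR _ c l r h => exact (run_pPushR false h).mono (by omega)
  | pushL _ c l r h => exact (run_pPushL false h).mono (by omega)
  | tr _ c S h => exact (run_pTr false (D := D) (l := S) h).mono (by omega)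
  | addR _ c y l r B h h' => exact (run_pAddR false true (D := D) (S := B) h h').mono (by omega)
  | subR _ c y l r B h h' => exact (run_pAddR true true (D := D) (S := B) h h').mono (by omega)
  | addL _ c y l r B h h' => exact (run_pAddL false true (D := D) (S := B) h h').mono (by omega)
  | subL _ c y l r B h h' => exact (run_pAddL true true (D := D) (S := B) h h').mono (by omega)
  | cmul => simp [isFree] at ho
  | prod => simp [isFree] at ho
  | loadX => simp [isFree] at ho
  | loadY => simp [isFree] at ho
  | zero _ l h =>
    have h2 := run_pZero (A := A) (P := P) (D := D)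
    rw [h] at h2
    exact h2.mono (by omega)
  | unl => simp [isFree] at ho
  | zeroB => exact (run_pZeroS true (D := D)).mono (by omega)

end Vale.Agent.P338.R3.H525
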