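import Vale.Agent.P338.R2.H968.Ruler

/-!
P338-D: operations on cells (blocks of symbols) of files: moving, copying, popping.
-/

namespace Vale.Agent.P338.R3.H525

open Vale.Agent.P338.R2.H898 Vale.Agent.P338.R2.H898.Prog
open Vale.Agent.P338.R2.H968
open Function (update)

variable {M F α : Type} [DecidableEq F] {d : α}

theorem run_act' (f : F) (o : Op α) (m : M) (z : F → Zip α) :
    Run d (act f o) ⟨m, z⟩ 1 ⟨m, update z f (o.app d (z f))⟩ := run_act f o ⟨m, z⟩

theorem upd3 {t r : F} (h : t ≠ r) (z : F → Zip α) (a b c : Zip α) :
    update (update (update z t a) r b) t c = update (update z t c) r b := by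
  rw [Function.update_comm h.symm, Function.update_idem]

/-- Move the head of `t` to the right, once for every symbol of the ruler. -/
def mvR (t r : F) : Prog M F α := forR r (act t .right)

/-- Move the head of `t` to the left, once for every symbol of the ruler. -/
def mvL (t r : F) : Prog M F α := forR r (act t .left)

theorem run_mvR {t r : F} (htr : t ≠ r) {x l y R : List α} {m : M} {z : F → Zip α}
    (hlen : x.length = R.length) (ht : z t = ⟨l, x ++ y⟩) (hr : z r = ⟨[], R⟩) :
    Run d (mvR t r) ⟨m, z⟩ (R.length * 3 + 2) ⟨m, update z t ⟨x.reverse ++ l, y⟩⟩ := by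
  have h1 := run_forR (d := d) (r := r) (p := act t .right) (R := R) (m := m)
    (fun i => update z t ⟨(x.take i).reverse ++ l, x.drop i ++ y⟩) 1
    (fun i => by rw [Function.update_of_ne htr.symm, hr])
    (fun i hi => by
      rw [← hlen] at hi
      have h2 := run_act' (d := d) t (.right : Op α) m
        (update (update z t ⟨(x.take i).reverse ++ l, x.drop i ++ y⟩) r (zipAt R i))
      have e1 : (Op.right : Op α).app d ⟨(x.take i).reverse ++ l, x.drop i ++ y⟩ =
          ⟨(x.take (i + 1)).reverse ++ l, x.drop (i + 1) ++ y⟩ := by
        rw [List.drop_eq_getElem_cons hi, List.cons_append, app_right_cons,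
          List.take_succ_eq_append_getElem hi, List.reverse_append]
        rfl
      rw [Function.update_of_ne htr, Function.update_self, e1, upd3 htr] at h2
      exact h2)
  simp only [List.take_zero, List.reverse_nil, List.nil_append, List.drop_zero] at h1
  rw [upd_self z t _ ht, ← hlen, List.take_length, List.drop_length,
    List.nil_append, hlen] at h1
  exact h1.mono (by omega)

theorem run_mvL {t r : F} (htr : t ≠ r) {x l y R : List α} {m : M} {z : F → Zip α}
    (hlen : x.length = R.length) (ht : z t = ⟨x ++ l, y⟩) (hr : z r = ⟨[], R⟩) :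
    Run d (mvL t r) ⟨m, z⟩ (R.length * 3 + 2) ⟨m, update z t ⟨l, x.reverse ++ y⟩⟩ := by
  have h1 := run_forR (d := d) (r := r) (p := act t .left) (R := R) (m := m)
    (fun i => update z t ⟨x.drop i ++ l, (x.take i).reverse ++ y⟩) 1
    (fun i => by rw [Function.update_of_ne htr.symm, hr])
    (fun i hi => by
      rw [← hlen] at hi
      have h2 := run_act' (d := d) t (.left : Op α) m
        (update (update z t ⟨x.drop i ++ l, (x.take i).reverse ++ y⟩) r (zipAt R i))
      have e1 : (Op.left : Op α).app d ⟨x.drop i ++ l, (x.take i).reverse ++ y⟩ =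
          ⟨x.drop (i + 1) ++ l, (x.take (i + 1)).reverse ++ y⟩ := by
        rw [List.drop_eq_getElem_cons hi, List.cons_append, app_left_cons,
          List.take_succ_eq_append_getElem hi, List.reverse_append]
        rfl
      rw [Function.update_of_ne htr, Function.update_self, e1, upd3 htr] at h2
      exact h2)
  simp only [List.take_zero, List.reverse_nil, List.nil_append, List.drop_zero] at h1
  rw [upd_self z t _ ht, ← hlen, List.take_length, List.drop_length,
    List.nil_append, hlen] at h1
  exact h1.mono (by omega)

theorem app_write_drop (v w : List α) (a : α) :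
    (Op.right : Op α).app d ((Op.write a : Op α).app d ⟨v, w⟩) = ⟨a :: v, w.tail⟩ := by
  cases w <;> rfl

/-- Copying one symbol from `f` to `g`; `g` is overwritten or extended. -/
theorem run_copy1' {e : α} {f g : F} (hfg : f ≠ g) {a : α} {u x v w : List α} {m : M}
    {z : F → Zip α} (hf : z f = ⟨u, a :: x⟩) (hg : z g = ⟨v, w⟩) :
    Run d (copy1 e f g) ⟨m, z⟩ 3
      ⟨m, update (update z f ⟨a :: u, x⟩) g ⟨a :: v, w.tail⟩⟩ := by
  have h1 : Run d (.prim fun m x => (m, some (g, .write ((x f).getD e))) : Prog M F α) ⟨m, z⟩ 1
      ⟨m, update z g ((Op.write a : Op α).app d ⟨v, w⟩)⟩ := by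
    apply Run.prim'
    simp [appAct, Store.reads, hf, hg]
  have h2 := run_act' (d := d) g (.right : Op α) m
    (update z g ((Op.write a : Op α).app d ⟨v, w⟩))
  simp only [Function.update_self, Function.update_idem, app_write_drop] at h2
  have h3 := run_act' (d := d) f (.right : Op α) m
        (update z g ⟨a :: v, w.tail⟩)
  simp only [Function.update_of_ne hfg, hf, app_right_cons] at h3
  rw [Function.update_comm hfg.symm] at h3
  exact Run.seq h1 (Run.seq h2 h3)

/-- Copying a block of length `|r|` from `f` to `g`; `g` is overwritten or extended. -/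
theorem run_copyN' {e : α} {f g r : F} (hfg : f ≠ g) (hfr : f ≠ r) (hgr : g ≠ r)
    {x u y v w R : List α} {m : M} {z : F → Zip α} (hlen : x.length = R.length)
    (hf : z f = ⟨u, x ++ y⟩) (hg : z g = ⟨v, w⟩) (hr : z r = ⟨[], R⟩) :
    Run d (copyN e f g r) ⟨m, z⟩ (R.length * 5 + 2)
      ⟨m, update (update z f ⟨x.reverse ++ u, y⟩) g ⟨x.reverse ++ v, w.drop R.length⟩⟩ := by
  have h1 := run_forR (d := d) (r := r) (p := copy1 e f g) (R := R) (m := m)
    (fun i => update (update z f ⟨(x.take i).reverse ++ u, x.drop i ++ y⟩) g
      ⟨(x.take i).reverse ++ v, w.drop i⟩) 3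
    (fun i => by
      rw [Function.update_of_ne hgr.symm, Function.update_of_ne hfr.symm, hr])
    (fun i hi => by
      rw [← hlen] at hi
      have h2 := run_copy1' (d := d) (e := e) hfg (a := x[i]) (u := (x.take i).reverse ++ u)
        (x := x.drop (i + 1) ++ y) (v := (x.take i).reverse ++ v) (w := w.drop i) (m := m)
        (z := update (update (update z f
          ⟨(x.take i).reverse ++ u, x.drop i ++ y⟩) g
          ⟨(x.take i).reverse ++ v, w.drop i⟩) r (zipAt R i))
        (by
          rw [Function.update_of_ne hfr, Function.update_of_ne hfg, Function.update_self,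
            List.drop_eq_getElem_cons hi]
          rfl)
        (by rw [Function.update_of_ne hgr, Function.update_self])
      have e1 : ∀ w : List α, x[i] :: ((x.take i).reverse ++ w) =
          (x.take (i + 1)).reverse ++ w := by
        intro w
        rw [List.take_succ_eq_append_getElem hi, List.reverse_append]
        rfl
      rw [e1, e1, List.tail_drop] at h2
      convert h2 using 2
      funext k
      simp only [Function.update_apply]
      split_ifs <;> simp_all)
  simp only [List.take_zero, List.reverse_nil, List.nil_append, List.drop_zero] at h1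
  rw [upd_self z f _ hf, upd_self z g _ hg, ← hlen, List.take_length, List.drop_length,
    List.nil_append, hlen] at h1
  exact h1.mono (by omega)

/-! ### Stack operations (a stack is a file with the head at its end) -/

/-- Append a copy of the block of `s` at the head to `t`; the head of `s` comes back. -/
def push (e : α) (s t r : F) : Prog M F α := .seq (copyN e s t r) (mvL s r)

theorem run_push {e : α} {s t r : F} (hst : s ≠ t) (hsr : s ≠ r) (htr : t ≠ r)
    {x u y v w R : List α} {m : M} {z : F → Zip α} (hlen : x.length = R.length)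
    (hs : z s = ⟨u, x ++ y⟩) (ht : z t = ⟨v, w⟩) (hr : z r = ⟨[], R⟩) :
    Run d (push e s t r) ⟨m, z⟩ (R.length * 8 + 4)
      ⟨m, update z t ⟨x.reverse ++ v, w.drop R.length⟩⟩ := by
  have h1 := run_copyN' (d := d) (e := e) hst hsr htr (m := m) (z := z) hlen hs ht hr
  have h2 := run_mvL (d := d) hsr (x := x.reverse) (l := u) (y := y) (R := R) (m := m)
    (z := update (update z s ⟨x.reverse ++ u, y⟩) t ⟨x.reverse ++ v, w.drop R.length⟩)
    (by simpa using hlen)
    (by rw [Function.update_of_ne hst, Function.update_self])
    (by rw [Function.update_of_ne htr.symm, Function.update_of_ne hsr.symm, hr])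
  rw [List.reverse_reverse] at h2
  have h3 := Run.seq h1 h2
  have e1 : update (update (update z s ⟨x.reverse ++ u, y⟩) t ⟨x.reverse ++ v, w.drop R.length⟩) s
      ⟨u, x ++ y⟩ = update z t ⟨x.reverse ++ v, w.drop R.length⟩ := by
    funext k
    simp only [Function.update_apply]
    split_ifs <;> simp_all
  rw [e1] at h3
  exact h3.mono (by omega)

/-- Remove the last block of the stack `A`. -/
def pop (A r : F) : Prog M F α := .seq (mvL A r) (act A .trunc)

theorem run_pop {A r : F} (hAr : A ≠ r) {x u R : List α} {m : M} {z : F → Zip α}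
    (hlen : x.length = R.length) (hA : z A = ⟨x ++ u, []⟩) (hr : z r = ⟨[], R⟩) :
    Run d (pop A r) ⟨m, z⟩ (R.length * 3 + 3) ⟨m, update z A ⟨u, []⟩⟩ := by
  have h1 := run_mvL (d := d) hAr (m := m) (z := z) hlen hA hr
  have h2 := run_act' (d := d) A (.trunc : Op α) m
        (update z A ⟨u, x.reverse ++ []⟩)
  simp only [Function.update_self, Function.update_idem, app_trunc] at h2
  exact (Run.seq h1 h2).mono (by omega)

/-- Move the last block of the stack `A` to the file `B` (overwriting or extending `B`). -/
def trB (e : α) (A B r : F) : Prog M F α :=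
  .seq (mvL A r) (.seq (copyN e A B r) (pop A r))

theorem run_trB {e : α} {A B r : F} (hAB : A ≠ B) (hAr : A ≠ r) (hBr : B ≠ r)
    {x u v w R : List α} {m : M} {z : F → Zip α} (hlen : x.length = R.length)
    (hA : z A = ⟨x ++ u, []⟩) (hB : z B = ⟨v, w⟩) (hr : z r = ⟨[], R⟩) :
    Run d (trB e A B r) ⟨m, z⟩ (R.length * 11 + 7)
      ⟨m, update (update z A ⟨u, []⟩) B ⟨x ++ v, w.drop R.length⟩⟩ := by
  have h1 := run_mvL (d := d) hAr (m := m) (z := z) hlen hA hr
  have h2 := run_copyN' (d := d) (e := e) hAB hAr hBr (x := x.reverse) (u := u) (y := [])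
    (v := v) (w := w) (R := R) (m := m) (z := update z A ⟨u, x.reverse ++ []⟩)
    (by simpa using hlen) (by rw [Function.update_self])
    (by rw [Function.update_of_ne hAB.symm, hB]) (by rw [Function.update_of_ne hAr.symm, hr])
  rw [List.reverse_reverse] at h2
  have h3 := run_pop (d := d) hAr (x := x) (u := u) (R := R) (m := m)
    (z := update (update (update z A ⟨u, x.reverse ++ []⟩) A ⟨x ++ u, []⟩) B
      ⟨x ++ v, w.drop R.length⟩) hlen
    (by rw [Function.update_of_ne hAB, Function.update_self])
    (by rw [Function.update_of_ne hBr.symm, Function.update_of_ne hAr.symm,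
      Function.update_of_ne hAr.symm, hr])
  have h4 := Run.seq h1 (Run.seq h2 h3)
  have e1 : update (update (update (update z A ⟨u, x.reverse ++ []⟩) A ⟨x ++ u, []⟩) B
      ⟨x ++ v, w.drop R.length⟩) A ⟨u, []⟩ =
      update (update z A ⟨u, []⟩) B ⟨x ++ v, w.drop R.length⟩ := by
    funext k
    simp only [Function.update_apply]
    split_ifs <;> simp_all
  rw [e1] at h4
  exact h4.mono (by omega)

/-- Write the symbol `a` once for every symbol of the ruler (overwriting or extending). -/
def fill (a : α) (t r : F) : Prog M F α := forR r (.seq (act t (.write a)) (act t .right))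

theorem run_fill {a : α} {t r : F} (htr : t ≠ r) {l w R : List α} {m : M} {z : F → Zip α}
    (ht : z t = ⟨l, w⟩) (hr : z r = ⟨[], R⟩) :
    Run d (fill a t r) ⟨m, z⟩ (R.length * 4 + 2)
      ⟨m, update z t ⟨List.replicate R.length a ++ l, w.drop R.length⟩⟩ := by
  have h1 := run_forR (d := d) (r := r) (p := .seq (act t (.write a)) (act t .right)) (R := R)
    (m := m) (fun i => update z t ⟨List.replicate i a ++ l, w.drop i⟩) 2
    (fun i => by rw [Function.update_of_ne htr.symm, hr])
    (fun i hi => by
      have h2 := run_act' (d := d) t (.write a : Op α) m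
        (update (update z t ⟨List.replicate i a ++ l, w.drop i⟩) r (zipAt R i))
      have h3 := run_act' (d := d) t (.right : Op α) m
        (update (update (update z t ⟨List.replicate i a ++ l, w.drop i⟩) r (zipAt R i)) t
          ((Op.write a : Op α).app d ⟨List.replicate i a ++ l, w.drop i⟩))
      rw [Function.update_of_ne htr, Function.update_self] at h2
      rw [Function.update_self, Function.update_idem, app_write_drop, List.tail_drop] at h3
      have h4 := Run.seq h2 h3
      convert h4 using 2
      funext k
      simp only [Function.update_apply, List.replicate_succ, List.cons_append]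
      split_ifs <;> simp_all)
  simp only [List.replicate_zero, List.nil_append, List.drop_zero] at h1
  rw [upd_self z t _ ht] at h1
  exact h1.mono (by omega)

end Vale.Agent.P338.R3.H525
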