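import Vale.Agent.P338.R3.H525.CellOps

/-!
P338-D: the operations without calls on the store of the cell machine.
-/

namespace Vale.Agent.P338.R3.H525

open Vale.Agent.P338.R2.H898 Vale.Agent.P338.R2.H898.Prog
open Vale.Agent.P338.R2.H968
open Vale.Agent.P338.R2.H784
open Vale.Agent.P338.R2.H968.CallEnv (mem0)
open Vale.Agent.P338.R3.H968
open Function (update)

variable {A : MTM} {P : CPar}

/-! ### Names of files -/

/-- The array. -/
abbrev fX : FT A := Sum.inl .x
/-- The stacks: `a` (`false`), `b` (`true`). -/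
abbrev fS (s : Bool) : FT A := Sum.inl (if s then .b else .a)
/-- A ruler. -/
abbrev fR (k : RN) : FT A := Sum.inl (.r k)
/-- A scratch file. -/
abbrev fH (i : Fin 8) : FT A := Sum.inl (.h i)

theorem fX_ne_fS (s : Bool) : (fX : FT A) ≠ fS s := by cases s <;> simp
theorem fX_ne_fR (k : RN) : (fX : FT A) ≠ fR k := by simp
theorem fX_ne_fH (i : Fin 8) : (fX : FT A) ≠ fH i := by simp
theorem fS_ne_fR (s : Bool) (k : RN) : (fS s : FT A) ≠ fR k := by cases s <;> simp
theorem fS_ne_fH (s : Bool) (i : Fin 8) : (fS s : FT A) ≠ fH i := by cases s <;> simp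
theorem fH_ne_fR (i : Fin 8) (k : RN) : (fH i : FT A) ≠ fR k := by simp
theorem fS_ne (s : Bool) : (fS s : FT A) ≠ fS (!s) := by cases s <;> simp
theorem fS_ne' (s : Bool) : (fS (!s) : FT A) ≠ fS s := by cases s <;> simp

/-! ### Reading the store -/

theorem ft_fR (D : DS) (k : RN) : ft P D (fR k : FT A) = ⟨[], List.replicate (rv P k) .u⟩ := rfl

theorem ft_fH (D : DS) (i : Fin 8) : ft P D (fH i : FT A) = ⟨[], []⟩ := rfl

theorem ft_fX (D : DS) : ft P D (fX : FT A) = zc P D.X := rfl

/-- The stacks of the data. -/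
def stk (D : DS) (s : Bool) : List Cell := if s then D.B else D.A

theorem ft_fS (D : DS) (s : Bool) : ft P D (fS s : FT A) = sc P (stk D s) := by
  cases s <;> rfl

/-- The data with a new stack. -/
def setS (D : DS) (s : Bool) (l : List Cell) : DS :=
  if s then { D with B := l } else { D with A := l }

@[simp] theorem setS_true (D : DS) (l : List Cell) : setS D true l = { D with B := l } := rfl
@[simp] theorem setS_false (D : DS) (l : List Cell) : setS D false l = { D with A := l } := rfl
@[simp] theorem stk_true (D : DS) : stk D true = D.B := rfl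
@[simp] theorem stk_false (D : DS) : stk D false = D.A := rfl

@[simp] theorem setS_X (D : DS) (s : Bool) (l : List Cell) : (setS D s l).X = D.X := by
  cases s <;> rfl

/-! ### Shape of the files -/

theorem zc_right (l r : List Cell) (c : Cell) : (zc P ⟨l, c :: r⟩ : Zip (Ac A)) =
    ⟨(l.flatMap fun c => (cellB P c).reverse).map bc,
      (cellB P c).map bc ++ (r.flatMap (cellB P)).map bc⟩ := by
  simp [zc]

theorem zc_left (l r : List Cell) (c : Cell) : (zc P ⟨c :: l, r⟩ : Zip (Ac A)) =
    ⟨((cellB P c).reverse).map bc ++ (l.flatMap fun c => (cellB P c).reverse).map bc,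
      (r.flatMap (cellB P)).map bc⟩ := by
  simp [zc]

theorem sc_cons (l : List Cell) (c : Cell) : (sc P (c :: l) : Zip (Ac A)) =
    ⟨((cellB P c).reverse).map bc ++ (l.flatMap fun c => (cellB P c).reverse).map bc, []⟩ := by
  simp [sc]

theorem ub_bc (b : Bool) : Sy.unbit (bc b : Ac A) = b := by cases b <;> rfl

/-! ### Updating the store -/

variable [DecidableEq A.Tape]

theorem ft_setX (D : DS) (z : Zip Cell) :
    (ft P { D with X := z } : FT A → Zip (Ac A)) = update (ft P D) fX (zc P z) := by
  rw [Function.eq_update_iff]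
  refine ⟨rfl, ?_⟩
  rintro (k | k) hk
  · cases k <;> first | rfl | exact absurd rfl hk
  · rfl

theorem ft_setS (D : DS) (s : Bool) (l : List Cell) :
    (ft P (setS D s l) : FT A → Zip (Ac A)) = update (ft P D) (fS s) (sc P l) := by
  rw [Function.eq_update_iff]
  refine ⟨by cases s <;> rfl, ?_⟩
  rintro (k | k) hk
  · cases s <;> cases k <;> first | rfl | exact absurd rfl hk
  · cases s <;> rfl

/-! ### Programs -/

/-- Head to the right. -/
def pR (A : MTM) [DecidableEq A.Tape] : PC A := mvR fX (fR .ell)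
/-- Head to the left. -/
def pL (A : MTM) [DecidableEq A.Tape] : PC A := mvL fX (fR .ell)

theorem run_pR {D : DS} {c : Cell} {l r : List Cell} (h : D.X = ⟨l, c :: r⟩) :
    Run (dc A) (pR A) (stc P D) (P.ell * 3 + 2) (stc P { D with X := ⟨c :: l, r⟩ }) := by
  have h1 := run_mvR (d := dc A) (fX_ne_fR (A := A) .ell) (x := (cellB P c).map bc)
    (l := (l.flatMap fun c => (cellB P c).reverse).map bc) (y := (r.flatMap (cellB P)).map bc)
    (R := List.replicate (rv P .ell) .u) (m := mem0 A) (z := ft P D) (by simp [rv])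
    (by rw [ft_fX, h, zc_right]) (ft_fR D .ell)
  unfold stc
  rw [ft_setX D ⟨c :: l, r⟩, zc_left, List.map_reverse]
  simpa [rv, pR] using h1

theorem run_pL {D : DS} {c : Cell} {l r : List Cell} (h : D.X = ⟨c :: l, r⟩) :
    Run (dc A) (pL A) (stc P D) (P.ell * 3 + 2) (stc P { D with X := ⟨l, c :: r⟩ }) := by
  have h1 := run_mvL (d := dc A) (fX_ne_fR (A := A) .ell) (x := ((cellB P c).reverse).map bc)
    (l := (l.flatMap fun c => (cellB P c).reverse).map bc) (y := (r.flatMap (cellB P)).map bc)
    (R := List.replicate (rv P .ell) .u) (m := mem0 A) (z := ft P D) (by simp [rv])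
    (by rw [ft_fX, h, zc_left]) (ft_fR D .ell)
  unfold stc
  rw [ft_setX D ⟨l, c :: r⟩, zc_right]
  rw [← List.map_reverse, List.reverse_reverse] at h1
  simpa [rv, pL] using h1

/-- Push a copy of the current cell on the stack `s`, go right. -/
def pPushR (A : MTM) [DecidableEq A.Tape] (s : Bool) : PC A := copyN (dc A) fX (fS s) (fR .ell)

theorem run_pPushR (s : Bool) {D : DS} {c : Cell} {l r : List Cell} (h : D.X = ⟨l, c :: r⟩) :
    Run (dc A) (pPushR A s) (stc P D) (P.ell * 5 + 2)
      (stc P (setS { D with X := ⟨c :: l, r⟩ } s (c :: stk D s))) := by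
  have h1 := run_copyN (d := dc A) (e := dc A) (fX_ne_fS (A := A) s) (fX_ne_fR .ell)
    (fS_ne_fR s .ell) (x := (cellB P c).map bc)
    (u := (l.flatMap fun c => (cellB P c).reverse).map bc) (y := (r.flatMap (cellB P)).map bc)
    (v := ((stk D s).flatMap fun c => (cellB P c).reverse).map bc)
    (R := List.replicate (rv P .ell) .u) (m := mem0 A) (z := ft P D) (by simp [rv])
    (by rw [ft_fX, h, zc_right]) (by rw [ft_fS]; rfl) (ft_fR D .ell)
  unfold stc
  rw [ft_setS, ft_setX D ⟨c :: l, r⟩, zc_left, sc_cons, List.map_reverse]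
  simpa [rv, pPushR] using h1

/-- Push a copy of the current cell on the stack `s`. -/
def pPush (A : MTM) [DecidableEq A.Tape] (s : Bool) : PC A := push (dc A) fX (fS s) (fR .ell)

theorem run_pPush (s : Bool) {D : DS} {c : Cell} {l r : List Cell} (h : D.X = ⟨l, c :: r⟩) :
    Run (dc A) (pPush A s) (stc P D) (P.ell * 8 + 4)
      (stc P (setS D s (c :: stk D s))) := by
  have h1 := run_push (d := dc A) (e := dc A) (fX_ne_fS (A := A) s) (fX_ne_fR .ell)
    (fS_ne_fR s .ell) (x := (cellB P c).map bc)
    (u := (l.flatMap fun c => (cellB P c).reverse).map bc) (y := (r.flatMap (cellB P)).map bc)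
    (v := ((stk D s).flatMap fun c => (cellB P c).reverse).map bc) (w := [])
    (R := List.replicate (rv P .ell) .u) (m := mem0 A) (z := ft P D) (by simp [rv])
    (by rw [ft_fX, h, zc_right]) (by rw [ft_fS]; rfl) (ft_fR D .ell)
  unfold stc
  rw [ft_setS, sc_cons, List.map_reverse]
  simpa [rv, pPush] using h1

/-- Go left, push a copy of this cell on the stack `s`. -/
def pPushL (A : MTM) [DecidableEq A.Tape] (s : Bool) : PC A := .seq (pL A) (pPush A s)

theorem run_pPushL (s : Bool) {D : DS} {c : Cell} {l r : List Cell} (h : D.X = ⟨c :: l, r⟩) :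
    Run (dc A) (pPushL A s) (stc P D) (P.ell * 11 + 6)
      (stc P (setS { D with X := ⟨l, c :: r⟩ } s (c :: stk D s))) := by
  have h1 := run_pL (A := A) (P := P) h
  have h2 := run_pPush (A := A) (P := P) s (D := { D with X := ⟨l, c :: r⟩ }) rfl
  have e : stk { D with X := ⟨l, c :: r⟩ } s = stk D s := by cases s <;> rfl
  rw [e] at h2
  exact (Run.seq h1 h2).mono (by omega)

/-- Move the top of the stack `s` to the other stack. -/
def pTr (A : MTM) [DecidableEq A.Tape] (s : Bool) : PC A := trB (dc A) (fS s) (fS (!s)) (fR .ell)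

theorem run_pTr (s : Bool) {D : DS} {c : Cell} {l : List Cell} (h : stk D s = c :: l) :
    Run (dc A) (pTr A s) (stc P D) (P.ell * 11 + 7)
      (stc P (setS (setS D s l) (!s) (c :: stk D (!s)))) := by
  have h1 := run_trB (d := dc A) (e := dc A) (fS_ne (A := A) s) (fS_ne_fR s .ell)
    (fS_ne_fR (!s) .ell) (x := ((cellB P c).reverse).map bc)
    (u := (l.flatMap fun c => (cellB P c).reverse).map bc)
    (v := ((stk D (!s)).flatMap fun c => (cellB P c).reverse).map bc) (w := [])
    (R := List.replicate (rv P .ell) .u) (m := mem0 A) (z := ft P D) (by simp [rv])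
    (by rw [ft_fS, h, sc_cons]) (by rw [ft_fS]; rfl) (ft_fR D .ell)
  unfold stc
  rw [ft_setS, ft_setS, sc_cons]
  simpa [rv, sc, pTr] using h1

/-- Remove the top of the stack `s`. -/
def pPop (A : MTM) [DecidableEq A.Tape] (s : Bool) : PC A := pop (fS s) (fR .ell)

theorem run_pPop (s : Bool) {D : DS} {c : Cell} {l : List Cell} (h : stk D s = c :: l) :
    Run (dc A) (pPop A s) (stc P D) (P.ell * 3 + 3) (stc P (setS D s l)) := by
  have h1 := run_pop (d := dc A) (fS_ne_fR (A := A) s .ell)
    (x := ((cellB P c).reverse).map bc)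
    (u := (l.flatMap fun c => (cellB P c).reverse).map bc)
    (R := List.replicate (rv P .ell) .u) (m := mem0 A) (z := ft P D) (by simp [rv])
    (by rw [ft_fS, h, sc_cons]) (ft_fR D .ell)
  unfold stc
  rw [ft_setS]
  simpa [rv, sc, pPop] using h1

/-- Overwrite the current cell by the top of the stack `s` (removed), go right; at the end of the
array a cell is appended. -/
def pSetR (A : MTM) [DecidableEq A.Tape] (s : Bool) : PC A :=
  .seq (mvL (fS s) (fR .ell)) (.seq (copyN (dc A) (fS s) fX (fR .ell)) (pPop A s))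

omit [DecidableEq A.Tape] in
/-- The rest of a file after a cell. -/
theorem drop_cells (r : List Cell) :
    (((r.flatMap (cellB P)).map bc : List (Ac A)).drop P.ell) =
      ((r.tail).flatMap (cellB P)).map bc := by
  cases r with
  | nil => simp
  | cons c r =>
    rw [List.flatMap_cons, List.map_append]
    exact List.drop_left' (by simp)

theorem run_trX (s : Bool) {D : DS} {c : Cell} {l : List Cell} (h : stk D s = c :: l) :
    Run (dc A) (trB (dc A) (fS s) fX (fR .ell) : PC A) (stc P D) (P.ell * 11 + 7)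
      (stc P (setS { D with X := ⟨c :: D.X.l, D.X.r.tail⟩ } s l)) := by
  have h1 := run_trB (d := dc A) (e := dc A) (fX_ne_fS (A := A) s).symm (fS_ne_fR s .ell)
    (fX_ne_fR .ell) (x := ((cellB P c).reverse).map bc)
    (u := (l.flatMap fun c => (cellB P c).reverse).map bc)
    (v := (D.X.l.flatMap fun c => (cellB P c).reverse).map bc)
    (w := (D.X.r.flatMap (cellB P)).map bc)
    (R := List.replicate (rv P .ell) .u) (m := mem0 A) (z := ft P D) (by simp [rv])
    (by rw [ft_fS, h, sc_cons]) (by rw [ft_fX]; rfl) (ft_fR D .ell)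
  unfold stc
  rw [ft_setS, ft_setX D ⟨c :: D.X.l, D.X.r.tail⟩, zc_left]
  rw [Function.update_comm (fX_ne_fS s)]
  simpa [rv, sc, drop_cells] using h1

/-- Add (subtract) the top of the stack `s` (removed) to the cell to the left of the head; the
head goes left. -/
def pAddL (A : MTM) [DecidableEq A.Tape] (sb s : Bool) : PC A :=
  addC bc Sy.unbit sb fX (fS s) (fH 0) (fR .b) (fR .nw)

/-- The sum (difference) of cells. -/
def cPm (sb : Bool) (x y : Cell) : Cell := fun j => pm sb (x j) (y j)

theorem cPm_false (x y : Cell) : cPm false x y = cAdd x y := rfl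
theorem cPm_true (x y : Cell) : cPm true x y = cSub x y := rfl

theorem run_pAddL (sb s : Bool) {D : DS} {c y : Cell} {l r S : List Cell}
    (h : D.X = ⟨c :: l, r⟩) (hs : stk D s = y :: S) :
    Run (dc A) (pAddL A sb s) (stc P D) (P.nw * (P.b * 7 + 6) + 2)
      (stc P (setS { D with X := ⟨l, cPm sb c y :: r⟩ } s S)) := by
  have h1 := run_addC (d := dc A) (bt := bc) (ub := Sy.unbit) ub_bc (sb := sb)
    (fX_ne_fS (A := A) s) (fX_ne_fH 0) (fS_ne_fH s 0) (fX_ne_fR .b) (fS_ne_fR s .b)
    (fH_ne_fR 0 .b) (fX_ne_fR .nw) (fS_ne_fR s .nw) (fH_ne_fR 0 .nw) (by simp)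
    (b := P.b) (N := P.nw) (x := c) (y := y)
    (R := List.replicate (rv P .b) .u) (Rn := List.replicate (rv P .nw) .u)
    (l := (l.flatMap fun c => (cellB P c).reverse).map bc)
    (w := (r.flatMap (cellB P)).map bc)
    (u := (S.flatMap fun c => (cellB P c).reverse).map bc) (m := mem0 A) (z := ft P D)
    (by simp [rv]) (by simp [rv])
    (by rw [ft_fX, h, zc_left]; rfl) (by rw [ft_fS, hs, sc_cons]; rfl) (ft_fH D 0)
    (ft_fR D .b) (ft_fR D .nw)
  unfold stc
  rw [ft_setS, ft_setX D ⟨l, cPm sb c y :: r⟩, zc_right]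
  exact h1

/-- Write (append) a zero cell, go right. -/
def pZero (A : MTM) [DecidableEq A.Tape] : PC A := fill (bc false) fX (fR .ell)

theorem cellB_zero : cellB P (fun _ => 0) = List.replicate P.ell false := by
  rw [cellB, wds_of_zero]
  rfl

theorem run_pZero {D : DS} :
    Run (dc A) (pZero A) (stc P D) (P.ell * 4 + 2)
      (stc P { D with X := ⟨(fun _ => 0) :: D.X.l, D.X.r.tail⟩ }) := by
  have h1 := run_fill (d := dc A) (a := bc false) (fX_ne_fR (A := A) .ell)
    (l := (D.X.l.flatMap fun c => (cellB P c).reverse).map bc)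
    (w := (D.X.r.flatMap (cellB P)).map bc)
    (R := List.replicate (rv P .ell) .u) (m := mem0 A) (z := ft P D)
    (by rw [ft_fX]; rfl) (ft_fR D .ell)
  unfold stc
  rw [ft_setX D ⟨(fun _ => 0) :: D.X.l, D.X.r.tail⟩, zc_left, cellB_zero]
  simpa [rv, drop_cells, pZero] using h1

/-- Push a zero cell on the stack `s`. -/
def pZeroS (A : MTM) [DecidableEq A.Tape] (s : Bool) : PC A := fill (bc false) (fS s) (fR .ell)

theorem run_pZeroS (s : Bool) {D : DS} :
    Run (dc A) (pZeroS A s) (stc P D) (P.ell * 4 + 2)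
      (stc P (setS D s ((fun _ => 0) :: stk D s))) := by
  have h1 := run_fill (d := dc A) (a := bc false) (fS_ne_fR (A := A) s .ell)
    (l := ((stk D s).flatMap fun c => (cellB P c).reverse).map bc) (w := [])
    (R := List.replicate (rv P .ell) .u) (m := mem0 A) (z := ft P D)
    (by rw [ft_fS]; rfl) (ft_fR D .ell)
  unfold stc
  rw [ft_setS, sc_cons, cellB_zero]
  simpa [rv, pZeroS] using h1

end Vale.Agent.P338.R3.H525
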