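import Vale.Agent.P338.R3.H525.OpsX

/-!
P338-D: more operations without calls on the store of the cell machine: the head stays at the
current cell.
-/

namespace Vale.Agent.P338.R3.H525

open Vale.Agent.P338.R2.H898 Vale.Agent.P338.R2.H898.Prog
open Vale.Agent.P338.R2.H968
open Vale.Agent.P338.R2.H784
open Vale.Agent.P338.R2.H968.CallEnv (mem0)
open Vale.Agent.P338.R3.H968
open Function (update)

variable {A : MTM} [DecidableEq A.Tape] {P : CPar}

omit [DecidableEq A.Tape] in
theorem stk_setX (D : DS) (z : Zip Cell) (s : Bool) : stk { D with X := z } s = stk D s := by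
  cases s <;> rfl

theorem setS_setX (D : DS) (z : Zip Cell) (s : Bool) (l : List Cell) :
    setS { D with X := z } s l = { setS D s l with X := z } := by
  cases s <;> rfl

theorem setX_self {D : DS} {z : Zip Cell} (h : D.X = z) : { D with X := z } = D := by
  subst h; rfl

/-- Current cell := top of the stack `s` (removed). -/
def pSet (A : MTM) [DecidableEq A.Tape] (s : Bool) : PC A :=
  .seq (trB (dc A) (fS s) fX (fR .ell)) (pL A)

theorem run_pSet (s : Bool) {D : DS} {c y : Cell} {l r S : List Cell} (h : D.X = ⟨l, c :: r⟩)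
    (hs : stk D s = y :: S) :
    Run (dc A) (pSet A s) (stc P D) (P.ell * 14 + 9)
      (stc P (setS { D with X := ⟨l, y :: r⟩ } s S)) := by
  have h1 := run_trX (A := A) (P := P) s hs
  rw [h] at h1
  have h2 := run_pL (A := A) (P := P) (D := setS { D with X := ⟨y :: l, r⟩ } s S) (c := y)
    (l := l) (r := r) (by simp)
  have e : ({ setS { D with X := ⟨y :: l, r⟩ } s S with X := ⟨l, y :: r⟩ } : DS) =
      setS { D with X := ⟨l, y :: r⟩ } s S := by cases s <;> rfl
  rw [e] at h2
  exact (Run.seq h1 h2).mono (by omega)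

/-- Current cell := current cell plus (minus) top of the stack `s` (removed). -/
def pAdd (A : MTM) [DecidableEq A.Tape] (sb s : Bool) : PC A := .seq (pR A) (pAddL A sb s)

theorem run_pAdd (sb s : Bool) {D : DS} {c y : Cell} {l r S : List Cell}
    (h : D.X = ⟨l, c :: r⟩) (hs : stk D s = y :: S) :
    Run (dc A) (pAdd A sb s) (stc P D) (P.ell * 3 + P.nw * (P.b * 7 + 6) + 4)
      (stc P (setS { D with X := ⟨l, cPm sb c y :: r⟩ } s S)) := by
  have h1 := run_pR (A := A) (P := P) h
  have h2 := run_pAddL (A := A) (P := P) sb s (D := { D with X := ⟨c :: l, r⟩ }) (c := c) (y := y)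
    (l := l) (r := r) (S := S) rfl (by rw [stk_setX, hs])
  exact (Run.seq h1 h2).mono (by omega)

/-- Current cell := zero. -/
def pZeroC (A : MTM) [DecidableEq A.Tape] : PC A := .seq (pZero A) (pL A)

theorem run_pZeroC {D : DS} {c : Cell} {l r : List Cell} (h : D.X = ⟨l, c :: r⟩) :
    Run (dc A) (pZeroC A) (stc P D) (P.ell * 7 + 4)
      (stc P { D with X := ⟨l, (fun _ => 0) :: r⟩ }) := by
  have h1 := run_pZero (A := A) (P := P) (D := D)
  rw [h] at h1
  have h2 := run_pL (A := A) (P := P) (D := { D with X := ⟨(fun _ => 0) :: l, r⟩ })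
    (c := fun _ => 0) (l := l) (r := r) rfl
  exact (Run.seq h1 h2).mono (by omega)

/-! ### Halves -/

omit [DecidableEq A.Tape] in
theorem cellB_halves (x : Cell) :
    cellB P x = wds P.b P.Y (fun j => x (j + P.Y)) ++ wds P.b P.Y x := by
  have e : P.nw = P.Y + P.Y := by simp [CPar.nw]; ring
  rw [cellB, e, wds_add]

theorem cellB_cLo (x : Cell) :
    cellB P (cLo P x) = List.replicate (P.Y * P.b) false ++ wds P.b P.Y x := by
  rw [cellB_halves, ← wds_of_zero]
  congr 1
  · exact wds_congr fun j _ => by simp [cLo]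
  · exact wds_congr fun j hj => by simp [cLo, hj]

theorem cellB_cHi (x : Cell) :
    cellB P (cHi P x) = List.replicate (P.Y * P.b) false ++ wds P.b P.Y fun j => x (j + P.Y) := by
  rw [cellB_halves, ← wds_of_zero]
  congr 1
  · exact wds_congr fun j _ => by simp [cHi]
  · exact wds_congr fun j hj => by simp [cHi, hj]

theorem ell_eq : P.ell = P.Y * P.b + P.Y * P.b := by
  simp only [CPar.ell, CPar.nw]
  ring

/-- Current cell := lower half. -/
def pLo (A : MTM) [DecidableEq A.Tape] : PC A :=
  .seq (fill (bc false) fX (fR .Yb)) (mvL fX (fR .Yb))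

theorem run_pLo {D : DS} {c : Cell} {l r : List Cell} (h : D.X = ⟨l, c :: r⟩) :
    Run (dc A) (pLo A) (stc P D) (P.ell * 7 + 4)
      (stc P { D with X := ⟨l, cLo P c :: r⟩ }) := by
  have h1 := run_fill (d := dc A) (a := bc false) (fX_ne_fR (A := A) .Yb)
    (l := (l.flatMap fun c => (cellB P c).reverse).map bc)
    (w := (wds P.b P.Y (fun j => c (j + P.Y))).map bc ++ ((wds P.b P.Y c).map bc ++
      (r.flatMap (cellB P)).map bc))
    (R := List.replicate (rv P .Yb) .u) (m := mem0 A) (z := ft P D)
    (by rw [ft_fX, h, zc_right, cellB_halves, List.map_append, List.append_assoc])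
    (ft_fR D .Yb)
  rw [List.drop_left' (by simp [rv])] at h1
  have h2 := run_mvL (d := dc A) (fX_ne_fR (A := A) .Yb)
    (x := List.replicate (List.replicate (rv P .Yb) (Sy.u : Ac A)).length (bc false))
    (l := (l.flatMap fun c => (cellB P c).reverse).map bc)
    (y := (wds P.b P.Y c).map bc ++ (r.flatMap (cellB P)).map bc)
    (R := List.replicate (rv P .Yb) .u) (m := mem0 A)
    (z := update (ft P D) fX
      ⟨List.replicate (List.replicate (rv P .Yb) (Sy.u : Ac A)).length (bc false) ++
        (l.flatMap fun c => (cellB P c).reverse).map bc,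
        (wds P.b P.Y c).map bc ++ (r.flatMap (cellB P)).map bc⟩)
    (by simp) (by rw [Function.update_self])
    (by rw [Function.update_of_ne (fX_ne_fR .Yb).symm]; exact ft_fR D .Yb)
  rw [Function.update_idem] at h2
  have h3 := Run.seq h1 h2
  unfold stc pLo
  rw [ft_setX D ⟨l, cLo P c :: r⟩, zc_right, cellB_cLo]
  have h4 : (List.replicate (rv P .Yb) (Sy.u : Ac A)).length = P.Y * P.b := by simp [rv]
  rw [h4] at h3
  rw [List.map_append, List.map_replicate, List.append_assoc]
  rw [List.reverse_replicate] at h3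
  exact h3.mono (by have := ell_eq (P := P); omega)

/-- Current cell := upper half. -/
def pHi (A : MTM) [DecidableEq A.Tape] : PC A :=
  .seq (copyN (dc A) fX (fH 1) (fR .Yb)) (.seq (mvL fX (fR .Yb))
    (.seq (fill (bc false) fX (fR .Yb)) (.seq (act (fH 1) .rew)
      (.seq (copyN (dc A) (fH 1) fX (fR .Yb)) (.seq (act (fH 1) .rew) (.seq (act (fH 1) .trunc)
        (.seq (mvL fX (fR .Yb)) (mvL fX (fR .Yb)))))))))

theorem run_pHi {D : DS} {c : Cell} {l r : List Cell} (h : D.X = ⟨l, c :: r⟩) :
    Run (dc A) (pHi A) (stc P D) (P.ell * 23 + 15)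
      (stc P { D with X := ⟨l, cHi P c :: r⟩ }) := by
  set L : List (Ac A) := (l.flatMap fun c => (cellB P c).reverse).map bc with hL
  set R : List (Ac A) := (r.flatMap (cellB P)).map bc with hR
  set U : List (Ac A) := (wds P.b P.Y (fun j => c (j + P.Y))).map bc with hU
  set V : List (Ac A) := (wds P.b P.Y c).map bc with hV
  set rl : List (Ac A) := List.replicate (rv P .Yb) (Sy.u : Ac A) with hrl
  have hl : rl.length = P.Y * P.b := by simp [hrl, rv]
  have lU : U.length = P.Y * P.b := by simp [hU]
  have lV : V.length = P.Y * P.b := by simp [hV]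
  have n1 := fX_ne_fH (A := A) 1
  have n2 := fX_ne_fR (A := A) .Yb
  have n3 := fH_ne_fR (A := A) 1 .Yb
  set z := (ft P D : FT A → Zip (Ac A)) with hz
  have hzX : z fX = ⟨L, U ++ (V ++ R)⟩ := by
    rw [hz, ft_fX, h, zc_right, cellB_halves, List.map_append, List.append_assoc]
  have hzR : z (fR .Yb) = ⟨[], rl⟩ := ft_fR D .Yb
  have hzH : z (fH 1) = ⟨[], []⟩ := ft_fH D 1
  have s1 := run_copyN (d := dc A) (e := dc A) n1 n2 n3 (x := U) (u := L) (y := V ++ R) (v := [])
    (R := rl) (m := mem0 A) (z := z) (by omega) hzX hzH hzR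
  rw [List.append_nil] at s1
  have s2 := run_mvL (d := dc A) n2 (x := U.reverse) (l := L) (y := V ++ R) (R := rl)
    (m := mem0 A) (z := update (update z fX ⟨U.reverse ++ L, V ++ R⟩) (fH 1)
      ⟨U.reverse ++ [], []⟩) (by simp; omega)
    (by rw [Function.update_of_ne n1, Function.update_self])
    (by rw [Function.update_of_ne n3.symm, Function.update_of_ne n2.symm, hzR])
  rw [List.reverse_reverse, List.append_nil, upd3 n1] at s2
  have s3 := run_fill (d := dc A) (a := bc false) n2 (l := L) (w := U ++ (V ++ R)) (R := rl)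
    (m := mem0 A) (z := update (update z fX ⟨L, U ++ (V ++ R)⟩) (fH 1) ⟨U.reverse, []⟩)
    (by rw [Function.update_of_ne n1, Function.update_self])
    (by rw [Function.update_of_ne n3.symm, Function.update_of_ne n2.symm, hzR])
  rw [List.drop_left' (by omega), upd3 n1] at s3
  set Z : List (Ac A) := List.replicate rl.length (bc false) with hZ
  have lZ : Z.length = P.Y * P.b := by simp [hZ, hl]
  have s4 := run_act' (d := dc A) (fH 1) (.rew : Op (Ac A)) (mem0 A)
    (update (update z fX ⟨Z ++ L, V ++ R⟩) (fH 1) ⟨U.reverse, []⟩)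
  rw [Function.update_self, app_rew, Function.update_idem, List.reverse_reverse,
    List.append_nil] at s4
  have s5 := run_copyN' (d := dc A) (e := dc A) n1.symm n3 n2 (x := U) (u := []) (y := [])
    (v := Z ++ L) (w := V ++ R) (R := rl) (m := mem0 A)
    (z := update (update z fX ⟨Z ++ L, V ++ R⟩) (fH 1) ⟨[], U⟩) (by omega)
    (by rw [Function.update_self, List.append_nil])
    (by rw [Function.update_of_ne n1, Function.update_self])
    (by rw [Function.update_of_ne n3.symm, Function.update_of_ne n2.symm, hzR])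
  rw [List.drop_left' (by omega), List.append_nil, Function.update_idem] at s5
  have s6 := run_act' (d := dc A) (fH 1) (.rew : Op (Ac A)) (mem0 A)
    (update (update (update z fX ⟨Z ++ L, V ++ R⟩) (fH 1) ⟨U.reverse, []⟩) fX
      ⟨U.reverse ++ (Z ++ L), R⟩)
  rw [upd3 n1, Function.update_self, app_rew, Function.update_idem, List.reverse_reverse,
    List.append_nil] at s6
  rw [upd3 n1] at s5
  have s7 := run_act' (d := dc A) (fH 1) (.trunc : Op (Ac A)) (mem0 A)
    (update (update z fX ⟨U.reverse ++ (Z ++ L), R⟩) (fH 1) ⟨[], U⟩)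
  rw [Function.update_self, app_trunc, Function.update_idem] at s7
  have s8 := run_mvL (d := dc A) n2 (x := U.reverse) (l := Z ++ L) (y := R) (R := rl)
    (m := mem0 A) (z := update (update z fX ⟨U.reverse ++ (Z ++ L), R⟩) (fH 1) ⟨[], []⟩)
    (by simp; omega)
    (by rw [Function.update_of_ne n1, Function.update_self])
    (by rw [Function.update_of_ne n3.symm, Function.update_of_ne n2.symm, hzR])
  rw [List.reverse_reverse, upd3 n1] at s8
  have s9 := run_mvL (d := dc A) n2 (x := Z) (l := L) (y := U ++ R) (R := rl)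
    (m := mem0 A) (z := update (update z fX ⟨Z ++ L, U ++ R⟩) (fH 1) ⟨[], []⟩)
    (by omega)
    (by rw [Function.update_of_ne n1, Function.update_self])
    (by rw [Function.update_of_ne n3.symm, Function.update_of_ne n2.symm, hzR])
  rw [upd3 n1] at s9
  have s10 := Run.seq s1 (Run.seq s2 (Run.seq s3 (Run.seq s4 (Run.seq s5 (Run.seq s6
    (Run.seq s7 (Run.seq s8 s9)))))))
  unfold stc pHi
  rw [ft_setX D ⟨l, cHi P c :: r⟩, zc_right, cellB_cHi]
  have e1 : update (update z fX ⟨L, Z.reverse ++ (U ++ R)⟩) (fH 1) ⟨[], []⟩ =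
      update (ft P D) fX ⟨(l.flatMap fun c => (cellB P c).reverse).map bc,
        (List.replicate (P.Y * P.b) false ++ wds P.b P.Y fun j => c (j + P.Y)).map bc ++
          (r.flatMap (cellB P)).map bc⟩ := by
    rw [upd_self _ (fH 1)]
    · rw [List.map_append, List.map_replicate, List.append_assoc, hZ, List.reverse_replicate, hl]
    · rw [Function.update_of_ne n1.symm, hzH]
  rw [e1] at s10
  exact s10.mono (by have := ell_eq (P := P); omega)

/-! ### The acts of the cell machine (without calls) -/

/-- Act 5, 6: current cell plus (minus) top of the stack `B`, go right. -/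
def pAddR (A : MTM) [DecidableEq A.Tape] (sb s : Bool) : PC A := .seq (pAdd A sb s) (pR A)

theorem run_pAddR (sb s : Bool) {D : DS} {c y : Cell} {l r S : List Cell}
    (h : D.X = ⟨l, c :: r⟩) (hs : stk D s = y :: S) :
    Run (dc A) (pAddR A sb s) (stc P D) (P.ell * 6 + P.nw * (P.b * 7 + 6) + 6)
      (stc P (setS { D with X := ⟨cPm sb c y :: l, r⟩ } s S)) := by
  have h1 := run_pAdd (A := A) (P := P) sb s h hs
  have h2 := run_pR (A := A) (P := P) (D := setS { D with X := ⟨l, cPm sb c y :: r⟩ } s S)
    (c := cPm sb c y) (l := l) (r := r) (by simp)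
  have e : ({ setS { D with X := ⟨l, cPm sb c y :: r⟩ } s S with X := ⟨cPm sb c y :: l, r⟩ } : DS) =
      setS { D with X := ⟨cPm sb c y :: l, r⟩ } s S := by cases s <;> rfl
  rw [e] at h2
  exact (Run.seq h1 h2).mono (by omega)

end Vale.Agent.P338.R3.H525
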