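import Vale.Agent.P338.R3.H968.Cell

/-!
P338-D: addition and subtraction of words, bit by bit.
-/

namespace Vale.Agent.P338.R3.H525

open Vale.Agent.P338.R3.H968
open Vale.Agent.P338.R2.H778 (bits val length_bits bits_zero)

@[simp] theorem length_wz (b : ℕ) (z : ℤ) : (wz b z).length = b := by simp [wz]

theorem wz_zero (z : ℤ) : wz 0 z = [] := rfl

theorem wz_succ (b : ℕ) (z : ℤ) : wz (b + 1) z = wz b (z / 2) ++ [decide (z % 2 = 1)] := by
  simp only [wz, bits]
  have h2 : (2 : ℤ) ^ (b + 1) = 2 * 2 ^ b := by rw [pow_succ]; ring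
  have hpos : (0 : ℤ) < 2 ^ b := by positivity
  congr 2
  · rw [h2]
    have h3 : z % (2 * 2 ^ b) / 2 = z / 2 % 2 ^ b := by
      rw [Int.emod_def, Int.emod_def]
      have h4 : z / (2 * 2 ^ b) = z / 2 / 2 ^ b := by
        rw [Int.ediv_ediv_of_nonneg (by norm_num)]
      rw [h4]
      have h5 : z - 2 * 2 ^ b * (z / 2 / 2 ^ b) = z + 2 * (-(2 ^ b * (z / 2 / 2 ^ b))) := by ring
      rw [h5, Int.add_mul_ediv_left _ _ (by norm_num)]
      ring
    rw [← h3]
    have h6 : 0 ≤ z % (2 * 2 ^ b) := Int.emod_nonneg _ (by positivity)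
    obtain ⟨n, hn⟩ := Int.eq_ofNat_of_zero_le h6
    rw [hn]
    norm_cast
  · rw [h2]
    have h6 : 0 ≤ z % (2 * 2 ^ b) := Int.emod_nonneg _ (by positivity)
    obtain ⟨n, hn⟩ := Int.eq_ofNat_of_zero_le h6
    have h7 : z % (2 * 2 ^ b) % 2 = z % 2 := Int.emod_emod_of_dvd z (Dvd.intro _ rfl)
    rw [hn] at h7 ⊢
    rw [decide_eq_decide, ← h7]
    simp only [Int.toNat_natCast]
    omega

theorem wz_reverse_succ (b : ℕ) (z : ℤ) :
    (wz (b + 1) z).reverse = decide (z % 2 = 1) :: (wz b (z / 2)).reverse := by
  rw [wz_succ, List.reverse_append]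
  rfl

/-- The carry of an addition, the borrow of a subtraction. -/
def car (sb p q c : Bool) : Bool :=
  if sb then (!p && (q || c)) || (q && c) else (p && q) || (c && (p || q))

/-- Addition (subtraction) of words, least significant bits first. -/
def rip (sb : Bool) : Bool → List Bool → List Bool → List Bool
  | c, p :: ps, q :: qs => (p ^^ (q ^^ c)) :: rip sb (car sb p q c) ps qs
  | _, _, _ => []

theorem rip_add (b : ℕ) (x y : ℤ) (c : Bool) :
    rip false c (wz b x).reverse (wz b y).reverse =
      (wz b (x + y + if c then 1 else 0)).reverse := by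
  induction b generalizing x y c with
  | zero => rfl
  | succ b ih =>
    rw [wz_reverse_succ, wz_reverse_succ, wz_reverse_succ, rip, ih]
    have hx : x % 2 = 0 ∨ x % 2 = 1 := by omega
    have hy : y % 2 = 0 ∨ y % 2 = 1 := by omega
    congr 1
    · rcases hx with hx | hx <;> rcases hy with hy | hy <;> cases c <;>
        simp [hx, hy] <;> omega
    · congr 2
      rcases hx with hx | hx <;> rcases hy with hy | hy <;> cases c <;>
        simp [car, hx, hy] <;> omega

theorem rip_sub (b : ℕ) (x y : ℤ) (c : Bool) :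
    rip true c (wz b x).reverse (wz b y).reverse =
      (wz b (x - y - if c then 1 else 0)).reverse := by
  induction b generalizing x y c with
  | zero => rfl
  | succ b ih =>
    rw [wz_reverse_succ, wz_reverse_succ, wz_reverse_succ, rip, ih]
    have hx : x % 2 = 0 ∨ x % 2 = 1 := by omega
    have hy : y % 2 = 0 ∨ y % 2 = 1 := by omega
    congr 1
    · rcases hx with hx | hx <;> rcases hy with hy | hy <;> cases c <;>
        simp [hx, hy] <;> omega
    · congr 2
      rcases hx with hx | hx <;> rcases hy with hy | hy <;> cases c <;>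
        simp [car, hx, hy] <;> omega

theorem length_rip (sb : Bool) : ∀ (c : Bool) (xs ys : List Bool), xs.length = ys.length →
    (rip sb c xs ys).length = xs.length
  | _, [], [], _ => rfl
  | c, p :: ps, q :: qs, h => by
    simp only [rip, List.length_cons]
    rw [length_rip sb _ ps qs (by simpa using h)]

/-- The first `i` steps. -/
theorem rip_take (sb : Bool) (i : ℕ) : ∀ (c : Bool) (xs ys : List Bool),
    (rip sb c xs ys).take i = rip sb c (xs.take i) (ys.take i) := by
  induction i with
  | zero => intro c xs ys; cases xs <;> cases ys <;> rfl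
  | succ i ih =>
    intro c xs ys
    cases xs with
    | nil => cases ys <;> simp [rip]
    | cons p ps =>
      cases ys with
      | nil => simp [rip]
      | cons q qs => simp only [rip, List.take_succ_cons, ih]

/-- The carry after `i` steps. -/
def rc (sb : Bool) : Bool → List Bool → List Bool → Bool
  | c, p :: ps, q :: qs => rc sb (car sb p q c) ps qs
  | c, _, _ => c

theorem rip_snoc (sb : Bool) : ∀ (c : Bool) (xs ys : List Bool) (p q : Bool),
    xs.length = ys.length →
    rip sb c (xs ++ [p]) (ys ++ [q]) = rip sb c xs ys ++ [p ^^ (q ^^ rc sb c xs ys)] ∧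
      rc sb c (xs ++ [p]) (ys ++ [q]) = car sb p q (rc sb c xs ys)
  | c, [], [], p, q, _ => ⟨rfl, rfl⟩
  | c, p' :: ps, q' :: qs, p, q, h => by
    have h1 := rip_snoc sb (car sb p' q' c) ps qs p q (by simpa using h)
    simp only [List.cons_append, rip, rc]
    rw [h1.1, h1.2]
    simp

end Vale.Agent.P338.R3.H525
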