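import Vale.Agent.P338.R3.H525.Free
import Vale.Agent.P338.R3.H784.EmitC

/-!
P338-D: the act 14: release of the lower half of the current cell plus the top of `B`.
-/

namespace Vale.Agent.P338.R3.H525

open Vale.Agent.P338.R2.H898 Vale.Agent.P338.R2.H898.Prog
open Vale.Agent.P338.R2.H968
open Vale.Agent.P338.R3.H968
open Vale.Agent.P338.R3.H898

variable {A : MTM} [DecidableEq A.Tape] {P : CPar}

/-- The program of the act 14. -/
def pUnl (A : MTM) [DecidableEq A.Tape] : PC A :=
  .seq (pPush A false) (.seq (pLo A) (.seq (pAdd A false true)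
    (.seq (Vale.Agent.P338.R3.H784.emitP A) (.seq (pSet A false) (.seq (pPush A false)
      (.seq (pHi A) (.seq (pPush A true) (.seq (pSet A false) (pR A)))))))))

theorem run_unl (hP : P.Ok) {u v : List Bool} {D D' : DS} (h : Ex1 P (14, u, v) D D') :
    Run (dc A) (pUnl A) (stc P D) (170 * (P.ell + 1)) (stc P D') := by
  have h0 := nw_le_ell hP
  have h1 : P.nw * (P.b * 7 + 6) ≤ 13 * P.ell := by
    have : P.nw * (P.b * 7 + 6) = 7 * P.ell + 6 * P.nw := by
      simp only [CPar.ell]
      ring
    omega
  cases h with
  | unl _ c y l r B hX hB _ =>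
    have s1 := run_pPush (A := A) (P := P) false hX
    rw [setS_false, stk_false] at s1
    have s2 := run_pLo (A := A) (P := P) (D := { D with A := c :: D.A }) (c := c) (l := l)
      (r := r) hX
    have s3 := run_pAdd (A := A) (P := P) false true
      (D := { D with A := c :: D.A, X := ⟨l, cLo P c :: r⟩ }) (c := cLo P c) (y := y) (l := l)
      (r := r) (S := B) rfl hB
    rw [setS_true, cPm_false] at s3
    set o := emit P (cAdd (cLo P c) y) P.Y 0 D.acc with ho
    have s4 := Vale.Agent.P338.R3.H784.run_emit (A := A) hP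
      (D := { D with A := c :: D.A, X := ⟨l, cAdd (cLo P c) y :: r⟩, B := B })
      (e := cAdd (cLo P c) y) (r := r) rfl
    have s5 := run_pSet (A := A) (P := P) false
      (D := { D with
        A := c :: D.A, X := ⟨l, cAdd (cLo P c) y :: r⟩, B := B, out := D.out ++ o.1, acc := o.2 })
      (c := cAdd (cLo P c) y) (y := c) (l := l) (r := r) (S := D.A) rfl rfl
    rw [setS_false] at s5
    have s6 := run_pPush (A := A) (P := P) false
      (D := { D with X := ⟨l, c :: r⟩, B := B, out := D.out ++ o.1, acc := o.2 })
      (c := c) (l := l) (r := r) rfl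
    rw [setS_false, stk_false] at s6
    have s7 := run_pHi (A := A) (P := P)
      (D := { D with
        A := c :: D.A, X := ⟨l, c :: r⟩, B := B, out := D.out ++ o.1, acc := o.2 })
      (c := c) (l := l) (r := r) rfl
    have s8 := run_pPush (A := A) (P := P) true
      (D := { D with
        A := c :: D.A, X := ⟨l, cHi P c :: r⟩, B := B, out := D.out ++ o.1, acc := o.2 })
      (c := cHi P c) (l := l) (r := r) rfl
    rw [setS_true, stk_true] at s8
    have s9 := run_pSet (A := A) (P := P) false
      (D := { D with
        A := c :: D.A, X := ⟨l, cHi P c :: r⟩, B := cHi P c :: B, out := D.out ++ o.1,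
        acc := o.2 })
      (c := cHi P c) (y := c) (l := l) (r := r) (S := D.A) rfl rfl
    rw [setS_false] at s9
    have s10 := run_pR (A := A) (P := P)
      (D := { D with
        X := ⟨l, c :: r⟩, B := cHi P c :: B, out := D.out ++ o.1, acc := o.2 })
      (c := c) (l := l) (r := r) rfl
    exact (Run.seq s1 (Run.seq s2 (Run.seq s3 (Run.seq s4 (Run.seq s5 (Run.seq s6 (Run.seq s7
      (Run.seq s8 (Run.seq s9 s10))))))))).mono (by omega)

end Vale.Agent.P338.R3.H525
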