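import Vale.Agent.P338.R3.H968.Wmul

/-!
P338-D: the words of a product are cut out of their slots.
-/

namespace Vale.Agent.P338.R3.H968

open Vale.Agent.P338.R2.H898 hiding val
open Prog
open Vale.Agent.P338.R2.H968
open Vale.Agent.P338.R2.H784
open Function (update)

variable {A : MTM}

/-- One slot: the word in the middle is appended to `h 2`. -/
def unpk1 (A : MTM) [DecidableEq (FT A)] : PC A :=
  .seq (act (cf (.h 1)) .right)
  (.seq (rN (cf (.h 1)) (rf .t))
  (.seq (copyN (dc A) (cf (.h 1)) (cf (.h 2)) (rf .b))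
  (rN (cf (.h 1)) (rf .s))))

/-- The words of the slots on `h 1` are written to the current cell of `x`. -/
def unpk (A : MTM) [DecidableEq (FT A)] : PC A :=
  .seq (forR (rf .nw) (unpk1 A))
  (.seq (clr (cf (.h 1)))
  (.seq (act (cf (.h 2)) .rew)
  (.seq (copyN (dc A) (cf (.h 2)) (cf .x) (rf .ell))
  (.seq (lN (cf .x) (rf .ell))
  (clr (cf (.h 2)))))))

/-- What is needed of the files. -/
def RI (P : CPar) (o : CF → Zip (Ac A)) : Prop :=
  ∀ k, k ≠ RN.nw → o (.r k) = ⟨[], List.replicate (rv P k) .u⟩

section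
variable [DecidableEq (FT A)]

theorem run_unpk1 {P : CPar} (hP : P.Ok) {m : CallMem A} {pre word post : List (Ac A)}
    (hpre : pre.length = 2 * P.b + 1 - P.s) (hword : word.length = P.b)
    (hpost : post.length = P.s) {u v l : List (Ac A)} {o : CF → Zip (Ac A)} (ho : RI P o)
    (h1 : o (.h 1) = ⟨u, (pre ++ (word ++ post)) ++ v⟩) (h2 : o (.h 2) = ⟨l, []⟩) :
    Run (dc A) (unpk1 A) ⟨m, S0 o⟩ (14 * P.b + 7)
      ⟨m, S0 (update (update o (.h 1) ⟨(pre ++ (word ++ post)).reverse ++ u, v⟩) (.h 2)
        ⟨word.reverse ++ l, []⟩)⟩ := by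
  have hb := hP.hb
  have hs := hP.hs
  have hw := hP.hw
  have rt : o (.r .t) = ⟨[], List.replicate (2 * P.b - P.s) .u⟩ := ho .t (by simp)
  have rb : o (.r .b) = ⟨[], List.replicate P.b .u⟩ := ho .b (by simp)
  have rs : o (.r .s) = ⟨[], List.replicate P.s .u⟩ := ho .s (by simp)
  obtain ⟨a, pre', rfl⟩ : ∃ a pre', pre = a :: pre' := by
    cases pre with
    | nil => simp at hpre; omega
    | cons a p => exact ⟨a, p, rfl⟩
  have hpre' : pre'.length = 2 * P.b - P.s := by simp at hpre; omega
  have s1 := run_act' (d := dc A) (f := cf (.h 1)) (o := .right)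
    (v := ⟨a :: u, pre' ++ (word ++ (post ++ v))⟩) (m := m) (z := S0 o)
    (by rw [S0_cf, h1]; simp)
  simp only [upd_cf] at s1
  have s2 := run_rN (d := dc A) (f := cf (.h 1)) (r := rf .t) (by simp) (x := pre')
    (u := a :: u) (v := word ++ (post ++ v)) (R := List.replicate (2 * P.b - P.s) .u) (m := m)
    (z := S0 (update o (.h 1) ⟨a :: u, pre' ++ (word ++ (post ++ v))⟩))
    (by simpa using hpre') (by rw [S0_cf, Function.update_self])
    (by rw [S0_cf, Function.update_of_ne (by simp), rt])
  simp only [upd_cf, Function.update_idem, List.length_replicate] at s2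
  have s3 := run_copyN (d := dc A) (e := dc A) (f := cf (.h 1)) (g := cf (.h 2)) (r := rf .b)
    (by simp) (by simp) (by simp) (x := word) (y := post ++ v) (u := pre'.reverse ++ (a :: u))
    (v := l) (R := List.replicate P.b .u) (m := m)
    (z := S0 (update o (.h 1) ⟨pre'.reverse ++ (a :: u), word ++ (post ++ v)⟩))
    (by simpa using hword) (by rw [S0_cf, Function.update_self])
    (by rw [S0_cf, Function.update_of_ne (by simp), h2])
    (by rw [S0_cf, Function.update_of_ne (by simp), rb])
  simp only [upd_cf, Function.update_idem, List.length_replicate] at s3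
  have s4 := run_rN (d := dc A) (f := cf (.h 1)) (r := rf .s) (by simp) (x := post)
    (u := word.reverse ++ (pre'.reverse ++ (a :: u))) (v := v)
    (R := List.replicate P.s .u) (m := m)
    (z := S0 (update (update o (.h 1) ⟨word.reverse ++ (pre'.reverse ++ (a :: u)), post ++ v⟩)
      (.h 2) ⟨word.reverse ++ l, []⟩))
    (by simpa using hpost)
    (by rw [S0_cf, Function.update_of_ne (by simp), Function.update_self])
    (by rw [S0_cf, Function.update_of_ne (by simp), Function.update_of_ne (by simp), rs])
  simp only [upd_cf, List.length_replicate] at s4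
  rw [upd_swap (by simp)] at s4
  refine Run.to (Run.seq s1 (Run.seq s2 (Run.seq s3 s4))) (by omega) ?_
  congr 4
  simp

theorem run_unpk {P : CPar} (hP : P.Ok) {m : CallMem A} {o : CF → Zip (Ac A)}
    (hr : ∀ k, o (.r k) = ⟨[], List.replicate (rv P k) .u⟩) (pre post : ℕ → List Bool)
    (hpre : ∀ i, (pre i).length = 2 * P.b + 1 - P.s) (hpost : ∀ i, (post i).length = P.s)
    (c z : Cell) {u v : List (Ac A)} (hx : o .x = ⟨u, (cellB P c).map bc ++ v⟩)
    (h1 : o (.h 1) = ⟨[], ((List.range P.nw).flatMap fun i =>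
      pre i ++ (wz P.b (z (P.nw - 1 - i)) ++ post i)).map bc⟩) (h2 : o (.h 2) = ⟨[], []⟩) :
    Run (dc A) (unpk A) ⟨m, S0 o⟩ (40 * ((3 * P.b + 1) * P.nw))
      ⟨m, S0 (update (update o (.h 1) ⟨[], []⟩) .x ⟨u, (cellB P z).map bc ++ v⟩)⟩ := by
  have hb := hP.hb
  have hY := hP.hY
  have hnw : 1 ≤ P.nw := by unfold CPar.nw; omega
  have hre : o (.r .ell) = ⟨[], List.replicate P.ell .u⟩ := hr .ell
  have s1 := run_wloop (A := A) (p := unpk1 A) (f := .h 1) (g := .h 2) (q := .r .nw)
    (by simp) (by simp) (by simp) (R := List.replicate P.nw .u) (m := m)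
    (w := fun i => (pre i ++ (wz P.b (z (P.nw - 1 - i)) ++ post i)).map bc)
    (w' := fun i => (wz P.b (z (P.nw - 1 - i))).map bc) (RI P)
    (fun o k v hk ho k' hk' => by
      rw [Function.update_of_ne, ho k' hk']
      rcases hk with rfl | rfl | rfl
      · simp
      · simp
      · simpa using hk') (14 * P.b + 7)
    (fun i _ u v l o ho h1 h2 => by
      simp only [List.map_append] at h1 ⊢
      exact run_unpk1 hP (by rw [List.length_map, hpre]) (by rw [List.length_map, length_wz])
        (by rw [List.length_map, hpost]) ho h1 h2)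
    (u := []) (v := []) (l := []) (o := o) (fun k _ => hr k)
    (by rw [List.length_replicate, h1, List.map_flatMap, List.append_nil]) h2 (hr .nw)
  rw [List.length_replicate, ← map_cellB] at s1
  simp only [List.append_nil] at s1
  set W := ((List.range P.nw).flatMap fun i =>
    (pre i ++ (wz P.b (z (P.nw - 1 - i)) ++ post i)).map (bc (A := A))).reverse with hW
  have s2 := run_clr (d := dc A) (cf (.h 1)) m
    (S0 (update (update o (.h 1) ⟨W, []⟩) (.h 2) ⟨((cellB P z).map bc).reverse, []⟩))
  simp only [upd_cf] at s2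
  rw [upd_swap (by simp)] at s2
  have s3 := run_act' (d := dc A) (f := cf (.h 2)) (o := .rew)
    (v := ⟨[], (cellB P z).map bc⟩) (m := m)
    (z := S0 (update (update o (.h 1) ⟨[], []⟩) (.h 2) ⟨((cellB P z).map bc).reverse, []⟩))
    (by rw [S0_cf, Function.update_self, app_rew, List.reverse_reverse, List.append_nil])
  simp only [upd_cf, Function.update_idem] at s3
  set o1 := update o (.h 1) (⟨[], []⟩ : Zip (Ac A)) with ho1
  have s4 := run_copyN' (d := dc A) (e := dc A) (f := cf (.h 2)) (g := cf .x) (r := rf .ell)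
    (by simp) (by simp) (by simp)
    (x := (cellB P z).map bc) (y := []) (u := []) (v := u)
    (w := (cellB P c).map bc ++ v) (R := List.replicate P.ell .u) (m := m)
    (z := S0 (update o1 (.h 2) ⟨[], (cellB P z).map bc⟩))
    (by simp [length_cellB]) (by rw [S0_cf, Function.update_self, List.append_nil])
    (by rw [S0_cf, Function.update_of_ne (by simp), ho1, Function.update_of_ne (by simp), hx])
    (by rw [S0_cf, Function.update_of_ne (by simp), ho1, Function.update_of_ne (by simp), hre])
  have e1 : ((cellB P c).map bc ++ v).drop P.ell = v := by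
    rw [List.drop_append_of_le_length (by simp [length_cellB]),
      List.drop_of_length_le (by simp [length_cellB]), List.nil_append]
  simp only [upd_cf, List.length_replicate, Function.update_idem, List.append_nil] at s4
  rw [e1] at s4
  have s5 := run_lN (d := dc A) (f := cf .x) (r := rf .ell) (by simp)
    (x := ((cellB P z).map bc).reverse) (u := u) (v := v)
    (R := List.replicate P.ell .u) (m := m)
    (z := S0 (update (update o1 (.h 2) ⟨((cellB P z).map bc).reverse, []⟩) .x
      ⟨((cellB P z).map bc).reverse ++ u, v⟩)) (by simp [length_cellB])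
    (by rw [S0_cf, Function.update_self])
    (by rw [S0_cf, Function.update_of_ne (by simp), Function.update_of_ne (by simp), ho1,
      Function.update_of_ne (by simp), hre])
  simp only [upd_cf, List.length_replicate, List.reverse_reverse, Function.update_idem] at s5
  have s6 := run_clr (d := dc A) (cf (.h 2)) m
    (S0 (update (update o1 (.h 2) ⟨((cellB P z).map bc).reverse, []⟩) .x
      ⟨u, (cellB P z).map bc ++ v⟩))
  simp only [upd_cf] at s6
  have e2 : update (update (update o1 (.h 2) ⟨((cellB P z).map bc).reverse, []⟩) .x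
      ⟨u, (cellB P z).map bc ++ v⟩) (.h 2) ⟨[], []⟩ =
      update o1 .x ⟨u, (cellB P z).map bc ++ v⟩ := by
    rw [upd_swap (by simp)]
    congr 1
    rw [upd_self]
    rw [ho1, Function.update_of_ne (by simp), h2]
  rw [e2] at s6
  refine Run.mono (Run.seq s1 (Run.seq s2 (Run.seq s3 (Run.seq s4 (Run.seq s5 s6))))) ?_
  have e3 : P.ell = P.nw * P.b := rfl
  have e7 : P.nw * 1 ≤ P.ell := by
    rw [e3]
    exact Nat.mul_le_mul_left _ (by omega)
  have e8 : P.nw * (14 * P.b + 7 + 2) = 14 * P.ell + 9 * P.nw := by rw [e3]; ring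
  have e9 : 40 * ((3 * P.b + 1) * P.nw) = 120 * P.ell + 40 * P.nw := by rw [e3]; ring
  rw [e8, e9]
  omega

end

end Vale.Agent.P338.R3.H968
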