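import Vale.Agent.P338.R3.H525.Ops
import Vale.Agent.P338.R3.H525.Rip

/-!
P338-D: word operations on files: addition and subtraction of the last block of a stack.
-/

namespace Vale.Agent.P338.R3.H525

open Vale.Agent.P338.R2.H898 Vale.Agent.P338.R2.H898.Prog
open Vale.Agent.P338.R2.H968
open Function (update)

variable {M F α : Type} [DecidableEq F] {d : α}

/-- The bit under the head of `f`. -/
def rd (ub : α → Bool) (x : F → Option α) (f : F) : Bool := ((x f).map ub).getD false

/-- One step of the addition (subtraction): the bits to the left of the heads. -/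
def addBit (bt : Bool → α) (ub : α → Bool) (sb : Bool) (t A cy : F) : Prog M F α :=
  .seq (act t .left) (.seq (act A .left)
    (.seq (.prim fun m x => (m, some (t, .write (bt (rd ub x t ^^ (rd ub x A ^^ rd ub x cy))))))
      (.seq (.prim fun m x => (m, some (cy, .write
          (bt (car sb (rd ub x t ^^ (rd ub x A ^^ rd ub x cy)) (rd ub x A) (rd ub x cy))))))
        (act A .trunc))))

theorem run_addBit {bt : Bool → α} {ub : α → Bool} (hb : ∀ b, ub (bt b) = b) {sb : Bool}
    {t A cy : F} (h1 : t ≠ A) (h2 : t ≠ cy) (h3 : A ≠ cy) {p q c : Bool} {l r u : List α} {m : M}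
    {z : F → Zip α} (ht : z t = ⟨bt p :: l, r⟩) (hA : z A = ⟨bt q :: u, []⟩)
    (hc : z cy = ⟨[], [bt c]⟩) :
    Run d (addBit bt ub sb t A cy) ⟨m, z⟩ 5
      ⟨m, update (update (update z t ⟨l, bt (p ^^ (q ^^ c)) :: r⟩) A ⟨u, []⟩) cy
        ⟨[], [bt (car sb p q c)]⟩⟩ := by
  have e1 := run_act' (d := d) t (.left : Op α) m z
  rw [ht, app_left_cons] at e1
  have e2 := run_act' (d := d) A (.left : Op α) m (update z t ⟨l, bt p :: r⟩)
  rw [Function.update_of_ne h1.symm, hA, app_left_cons] at e2
  have e3 : Run d (.prim fun m x => (m, some (t, .write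
      (bt (rd ub x t ^^ (rd ub x A ^^ rd ub x cy))))) : Prog M F α)
      ⟨m, update (update z t ⟨l, bt p :: r⟩) A ⟨u, [bt q]⟩⟩ 1
      ⟨m, update (update z t ⟨l, bt (p ^^ (q ^^ c)) :: r⟩) A ⟨u, [bt q]⟩⟩ := by
    apply Run.prim'
    simp only [appAct, Store.reads, rd, Function.update_self, Function.update_of_ne h1,
      Function.update_of_ne h2.symm, Function.update_of_ne h3.symm, hc, peek_cons,
      Option.map_some, Option.getD_some, hb, app_write_cons]
    congr 1
    exact upd3 h1 z _ _ _
  have e4 : Run d (.prim fun m x => (m, some (cy, .write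
      (bt (car sb (rd ub x t ^^ (rd ub x A ^^ rd ub x cy)) (rd ub x A) (rd ub x cy))))) :
        Prog M F α)
      ⟨m, update (update z t ⟨l, bt (p ^^ (q ^^ c)) :: r⟩) A ⟨u, [bt q]⟩⟩ 1
      ⟨m, update (update (update z t ⟨l, bt (p ^^ (q ^^ c)) :: r⟩) A ⟨u, [bt q]⟩) cy
        ⟨[], [bt (car sb p q c)]⟩⟩ := by
    apply Run.prim'
    simp only [appAct, Store.reads, rd, Function.update_self, Function.update_of_ne h1,
      Function.update_of_ne h2.symm, Function.update_of_ne h3.symm, hc, peek_cons,
      Option.map_some, Option.getD_some, hb, app_write_cons]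
    congr 6
    cases p <;> cases q <;> cases c <;> rfl
  have e5 := run_act' (d := d) A (.trunc : Op α) m
    (update (update (update z t ⟨l, bt (p ^^ (q ^^ c)) :: r⟩) A ⟨u, [bt q]⟩) cy
        ⟨[], [bt (car sb p q c)]⟩)
  rw [Function.update_of_ne h3, Function.update_self, app_trunc, upd3 h3] at e5
  exact (Run.seq e1 (Run.seq e2 (Run.seq e3 (Run.seq e4 e5)))).mono (by omega)

/-- Addition (subtraction) of one word. -/
def addW (bt : Bool → α) (ub : α → Bool) (sb : Bool) (t A cy r : F) : Prog M F α :=
  .seq (act cy (.write (bt false))) (.seq (forR r (addBit bt ub sb t A cy)) (act cy .trunc))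

theorem run_addW {bt : Bool → α} {ub : α → Bool} (hb : ∀ b, ub (bt b) = b) {sb : Bool}
    {t A cy r : F} (h1 : t ≠ A) (h2 : t ≠ cy) (h3 : A ≠ cy) (h4 : t ≠ r) (h5 : A ≠ r)
    (h6 : cy ≠ r) {xs ys : List Bool} {R l w u : List α} {m : M}
    {z : F → Zip α} (hx : xs.length = R.length) (hy : ys.length = R.length)
    (ht : z t = ⟨xs.map bt ++ l, w⟩) (hA : z A = ⟨ys.map bt ++ u, []⟩)
    (hc : z cy = ⟨[], []⟩) (hr : z r = ⟨[], R⟩) :
    Run d (addW bt ub sb t A cy r) ⟨m, z⟩ (R.length * 7 + 4)
      ⟨m, update (update z t ⟨l, ((rip sb false xs ys).map bt).reverse ++ w⟩) A ⟨u, []⟩⟩ := by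
  have e1 := run_act' (d := d) cy (.write (bt false) : Op α) m z
  rw [hc, app_write_nil] at e1
  set Z : ℕ → F → Zip α := fun i => update (update (update z t
    ⟨(xs.drop i).map bt ++ l, ((rip sb false (xs.take i) (ys.take i)).map bt).reverse ++ w⟩) A
    ⟨(ys.drop i).map bt ++ u, []⟩) cy
      ⟨[], [bt (rc sb false (xs.take i) (ys.take i))]⟩ with hZ
  have e2 := run_forR (d := d) (r := r) (p := addBit bt ub sb t A cy) (R := R) (m := m) Z 5
    (fun i => by
      rw [hZ]
      simp only [Function.update_of_ne h6.symm, Function.update_of_ne h5.symm,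
        Function.update_of_ne h4.symm, hr])
    (fun i hi => by
      have hi1 : i < xs.length := by omega
      have hi2 : i < ys.length := by omega
      have k1 := run_addBit (d := d) (sb := sb) hb h1 h2 h3 (p := xs[i]) (q := ys[i])
        (c := rc sb false (xs.take i) (ys.take i)) (l := (xs.drop (i + 1)).map bt ++ l)
        (r := ((rip sb false (xs.take i) (ys.take i)).map bt).reverse ++ w)
        (u := (ys.drop (i + 1)).map bt ++ u) (m := m) (z := update (Z i) r (zipAt R i))
        (by
          rw [Function.update_of_ne h4, hZ]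
          simp only [Function.update_of_ne h2, Function.update_of_ne h1, Function.update_self]
          rw [List.drop_eq_getElem_cons hi1]
          rfl)
        (by
          rw [Function.update_of_ne h5, hZ]
          simp only [Function.update_of_ne h3, Function.update_self]
          rw [List.drop_eq_getElem_cons hi2]
          rfl)
        (by
          rw [Function.update_of_ne h6, hZ]
          simp only [Function.update_self])
      have k2 := rip_snoc sb false (xs.take i) (ys.take i) xs[i] ys[i] (by
        rw [List.length_take, List.length_take]; omega)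
      rw [← List.take_succ_eq_append_getElem hi1, ← List.take_succ_eq_append_getElem hi2] at k2
      convert k1 using 2
      rw [hZ]
      simp only [k2.1, k2.2, List.map_append, List.reverse_append, List.map_cons, List.map_nil,
        List.reverse_cons, List.reverse_nil, List.nil_append, List.cons_append]
      funext k
      simp only [Function.update_apply]
      split_ifs <;> simp_all)
  have e3 := run_act' (d := d) cy (.trunc : Op α) m (Z R.length)
  have q1 : Z 0 = update z cy ⟨[], [bt false]⟩ := by
    rw [hZ]
    simp only [List.drop_zero, List.take_zero, rip, rc, List.map_nil, List.reverse_nil,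
      List.nil_append]
    rw [upd_self z t _ ht, upd_self z A _ hA]
  have q2 : update (Z R.length) cy ((Op.trunc : Op α).app d (Z R.length cy)) =
      update (update z t ⟨l, ((rip sb false xs ys).map bt).reverse ++ w⟩) A ⟨u, []⟩ := by
    rw [hZ]
    simp only [Function.update_self, app_trunc, Function.update_idem]
    rw [← hx, List.drop_length, List.take_length, hx, ← hy, List.drop_length, List.take_length]
    simp only [List.map_nil, List.nil_append]
    rw [upd_self _ cy]
    rw [Function.update_of_ne h3.symm, Function.update_of_ne h2.symm, hc]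
  rw [q1] at e2
  rw [q2] at e3
  exact (Run.seq e1 (Run.seq e2 e3)).mono (by omega)

end Vale.Agent.P338.R3.H525
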