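import Vale.Agent.P338.R3.H525.Word

/-!
P338-D: cells: lemmas on the bits of words and cells.
-/

namespace Vale.Agent.P338.R3.H525

open Vale.Agent.P338.R3.H968
open Vale.Agent.P338.R2.H778 (bits val length_bits bits_zero)

theorem wz_getD (b : ℕ) (z : ℤ) (i : ℕ) (hi : i < b) :
    (wz b z).getD i false = decide (z / 2 ^ (b - 1 - i) % 2 = 1) := by
  induction b generalizing z i with
  | zero => omega
  | succ b ih =>
    rw [wz_succ, List.getD_eq_getElem?_getD]
    by_cases h : i < b
    · rw [List.getElem?_append_left (by simpa using h), ← List.getD_eq_getElem?_getD, ih _ _ h,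
        Int.ediv_ediv_of_nonneg (by norm_num)]
      have e1 : (2 : ℤ) * 2 ^ (b - 1 - i) = 2 ^ (b + 1 - 1 - i) := by
        rw [← pow_succ']
        congr 1
        omega
      rw [e1]
    · have e1 : i = b := by omega
      subst e1
      rw [List.getElem?_append_right (by simp)]
      simp

theorem wz_ext {b : ℕ} {w : List Bool} {z : ℤ} (hw : w.length = b)
    (h : ∀ i < b, w.getD i false = decide (z / 2 ^ (b - 1 - i) % 2 = 1)) : w = wz b z := by
  apply List.ext_getElem (by simpa using hw)
  intro i h1 h2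
  have h3 := h i (by omega)
  rw [← wz_getD b z i (by omega)] at h3
  rw [List.getD_eq_getElem _ _ h1, List.getD_eq_getElem _ _ h2] at h3
  exact h3

/-- The word shifted to the left. -/
def shlW (b k : ℕ) (w : List Bool) : List Bool := (List.range b).map fun i => (w.drop k).getD i false

/-- The word shifted to the right. -/
def shrW (b k : ℕ) (w : List Bool) : List Bool := (List.range b).map fun i => w.getD (i - k) false

theorem getD_range_map (b i : ℕ) (f : ℕ → Bool) (hi : i < b) :
    ((List.range b).map f).getD i false = f i := by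
  rw [List.getD_eq_getElem _ _ (by simpa using hi)]
  simp

theorem shlW_wz (b k : ℕ) (x : ℤ) : shlW b k (wz b x) = wz b (x * 2 ^ k) := by
  apply wz_ext (by simp [shlW])
  intro i hi
  rw [shlW, getD_range_map _ _ _ hi]
  have e1 : ((wz b x).drop k).getD i false = (wz b x).getD (k + i) false := by
    simp [List.getD_eq_getElem?_getD]
  rw [e1]
  by_cases h : k + i < b
  · rw [wz_getD _ _ _ h]
    have e2 : b - 1 - i = (b - 1 - (k + i)) + k := by omega
    rw [e2, pow_add, Int.mul_ediv_mul_of_pos_left _ _ (by positivity)]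
  · rw [List.getD_eq_default _ _ (by simp; omega)]
    have e2 : k = (k - (b - 1 - i) - 1) + 1 + (b - 1 - i) := by omega
    rw [e2, pow_add, pow_add]
    have e3 : x * (2 ^ (k - (b - 1 - i) - 1) * 2 ^ 1 * 2 ^ (b - 1 - i)) =
        (x * 2 ^ (k - (b - 1 - i) - 1) * 2) * 2 ^ (b - 1 - i) := by ring
    rw [e3, Int.mul_ediv_cancel _ (by positivity)]
    simp

theorem sg_emod (b : ℕ) (x : ℤ) : sg b x % 2 ^ b = x % 2 ^ b := by
  have := Int.bmod_emod (x := x) (m := 2 ^ b)
  simpa [sg] using this

theorem sg_lt (b : ℕ) (x : ℤ) : sg (b + 1) x < 2 ^ b := by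
  have h := Int.bmod_lt (x := x) (m := 2 ^ (b + 1)) (by positivity)
  have e : (((2 ^ (b + 1) : ℕ) : ℤ) + 1) / 2 = 2 ^ b := by
    push_cast
    rw [pow_succ]
    omega
  rw [e] at h
  exact h

theorem le_sg (b : ℕ) (x : ℤ) : -(2 ^ b) ≤ sg (b + 1) x := by
  have h := Int.le_bmod (x := x) (m := 2 ^ (b + 1)) (by positivity)
  have e : ((2 ^ (b + 1) : ℕ) : ℤ) / 2 = 2 ^ b := by
    push_cast
    rw [pow_succ]
    omega
  rw [e] at h
  exact h

/-- The bits of numbers that are congruent modulo `2 ^ b`. -/
theorem bit_congr {b : ℕ} {x y : ℤ} (h : x % 2 ^ b = y % 2 ^ b) {i : ℕ} (hi : i < b) :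
    x / 2 ^ i % 2 = y / 2 ^ i % 2 := by
  obtain ⟨k, hk'⟩ : (2 : ℤ) ^ b ∣ x - y :=
    Int.ModEq.dvd (show y ≡ x [ZMOD 2 ^ b] from h.symm)
  have hk : x = y + 2 ^ b * k := by linarith
  have e1 : (2 : ℤ) ^ b = 2 ^ i * (2 * 2 ^ (b - 1 - i)) := by
    rw [← pow_succ', ← pow_add]
    congr 1
    omega
  rw [hk, e1]
  have e2 : y + 2 ^ i * (2 * 2 ^ (b - 1 - i)) * k = y + 2 ^ i * (2 * (2 ^ (b - 1 - i) * k)) := by
    ring
  rw [e2, Int.add_mul_ediv_left _ _ (by positivity)]
  omega

theorem shrW_wz (b k : ℕ) (x : ℤ) : shrW b k (wz b x) = wz b (sg b x / 2 ^ k) := by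
  apply wz_ext (by simp [shrW])
  intro i hi
  rw [shrW, getD_range_map _ _ _ hi]
  rw [wz_getD _ _ _ (by omega), Int.ediv_ediv_of_nonneg (by positivity), ← pow_add]
  rw [decide_eq_decide]
  obtain ⟨b, rfl⟩ : ∃ b', b = b' + 1 := ⟨b - 1, by omega⟩
  by_cases h : k ≤ i
  · have e2 : k + (b + 1 - 1 - i) = b + 1 - 1 - (i - k) := by omega
    rw [e2, bit_congr (sg_emod (b + 1) x) (i := b + 1 - 1 - (i - k)) (by omega)]
  · have e2 : i - k = 0 := by omega
    rw [e2, Nat.sub_zero, Nat.add_sub_cancel]
    rw [← bit_congr (sg_emod (b + 1) x) (i := b) (by omega)]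
    have h1 := sg_lt b x
    have h2 := le_sg b x
    have hp : (0 : ℤ) < 2 ^ b := by positivity
    have key : ∀ j, b ≤ j → sg (b + 1) x / 2 ^ j = if 0 ≤ sg (b + 1) x then 0 else -1 := by
      intro j hj
      have hp2 : (2 : ℤ) ^ b ≤ 2 ^ j := pow_le_pow_right₀ (by norm_num) hj
      split_ifs with h3
      · exact Int.ediv_eq_zero_of_lt h3 (by linarith)
      · rw [Int.ediv_eq_iff_of_pos (by positivity)]
        constructor <;> nlinarith
    rw [key b le_rfl, key _ (by omega)]

theorem wds_succ (b n : ℕ) (x : Cell) : wds b (n + 1) x = wz b (x n) ++ wds b n x := by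
  unfold wds
  rw [List.range_succ_eq_map, List.flatMap_cons, List.flatMap_map]
  simp only [Nat.add_sub_cancel, Nat.sub_zero]
  congr 1
  apply List.flatMap_congr
  intro i hi
  congr 2
  omega

@[simp] theorem length_wds (b n : ℕ) (x : Cell) : (wds b n x).length = n * b := by
  induction n with
  | zero => simp [wds]
  | succ n ih =>
    rw [wds_succ, List.length_append, ih, length_wz]
    ring

theorem wds_add (b m n : ℕ) (x : Cell) :
    wds b (m + n) x = wds b m (fun j => x (j + n)) ++ wds b n x := by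
  induction m with
  | zero => simp [wds]
  | succ m ih =>
    rw [show m + 1 + n = (m + n) + 1 by ring, wds_succ, wds_succ, ih, List.append_assoc]

theorem wds_congr {b n : ℕ} {x y : Cell} (h : ∀ j < n, x j = y j) : wds b n x = wds b n y := by
  induction n with
  | zero => rfl
  | succ n ih => rw [wds_succ, wds_succ, h n (by omega), ih fun j hj => h j (by omega)]

theorem wz_of_zero (b : ℕ) : wz b 0 = List.replicate b false := by
  simp [wz, bits_zero]

theorem wds_of_zero (b n : ℕ) : wds b n (fun _ => 0) = List.replicate (n * b) false := by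
  induction n with
  | zero => simp [wds]
  | succ n ih =>
    rw [wds_succ, ih, wz_of_zero, ← List.replicate_add]
    congr 1
    ring

theorem wds_reverse (b n : ℕ) (x : Cell) :
    (wds b n x).reverse = (List.range n).flatMap fun i => (wz b (x i)).reverse := by
  induction n with
  | zero => rfl
  | succ n ih =>
    rw [wds_succ, List.reverse_append, ih, List.range_succ, List.flatMap_append]
    simp

@[simp] theorem length_cellB (P : CPar) (x : Cell) : (cellB P x).length = P.ell := by
  simp [cellB, CPar.ell]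

end Vale.Agent.P338.R3.H525
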